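import Vale.Agent.P165.EX.Lin.Q1

/-!
# Amenable-by-linear symmetry groups

A group with a linear image of characteristic zero and a kernel with Følner sets, acting properly
and cofinitely, stabilisers meeting the kernel trivially: positive vertex expansion forces a
nonuniqueness phase, given the phase for arbitrary kernels. Free actions satisfy the last condition.
-/

namespace Vale.Agent.P165.EX.Lin

open Finset Matrix
open scoped Pointwise MatrixGroups

/-- Følner sets pass along isomorphisms. -/
theorem fol_equiv {G G' : Type} [Group G] [Group G'] (e : G ≃* G') (h : Fol G) : Fol G' := by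
  classical
  intro _ S k
  obtain ⟨A, hA, hAk⟩ := h inferInstance (S.image e.symm) k
  refine ⟨A.image e, hA.image _, ?_⟩
  have hs : (S.image e.symm).image e = S := by
    rw [image_image]
    simp
  have he : (A.image e * S) \ A.image e = ((A * S.image e.symm) \ A).image e := by
    rw [image_sdiff _ _ e.injective, image_mul, hs]
  rw [he, card_image_of_injective _ e.injective, card_image_of_injective _ e.injective]
  exact hAk

/-- Expanding graphs with a symmetry group that is amenable by linear over a field all of whose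
linear images without solvable subgroups of finite index give phases. -/
theorem phase_of_expands_of_linear {K : Type} [Field K]
    (hlin : ∀ (Δ : Type) [Group Δ] (m : ℕ) (ψ : Δ →* GL (Fin m) K),
      (∀ M : Subgroup ψ.range, M.FiniteIndex → ¬ Group.IsSolvable M) → PhaseQT Δ)
    {Γ : Type} [Group Γ] {n : ℕ} (φ : Γ →* GL (Fin n) K) (hN : Fol φ.ker) {V : Type}
    (G : SimpleGraph V) (hc : G.Connected) (hf : ∀ v, (G.neighborSet v).Finite)
    (Φ : Γ →* (G ≃g G)) (hstab : ∀ v, {g | Φ g v = v}.Finite)
    (hkerfree : ∀ g v, Φ g v = v → φ g = 1 → g = 1) (R : Finset V)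
    (cover : ∀ v, ∃ g, Φ g v ∈ R) {h : ℝ} (hh : 0 < h) (he : Expands G h) : pc G < pu G := by
  classical
  have hns : ∀ M : Subgroup φ.range, M.FiniteIndex → ¬ Group.IsSolvable M := fun M hM hsol =>
    not_expands (fol_extension φ.ker hN (fol_equiv (QuotientGroup.quotientKerEquivRange φ).symm
      (haveI := hM; fol_virtuallySolvable M hsol))) hc hf Φ hstab R cover hh he
  have : Group.FG Γ := Stab.fg_of_proper_cofinite hc hf Φ hstab R cover
  -- a normal subgroup of finite index acting freely
  set T := {g : Γ | g ≠ 1 ∧ ∃ r ∈ R, Φ g r = r}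
  have hT : T.Finite :=
    (R.finite_toSet.biUnion fun r _ => hstab r).subset fun g ⟨_, r, hr, hg⟩ =>
      Set.mem_biUnion hr hg
  have hsep : ∀ g ∈ T, ∃ H : Subgroup Γ, H.FiniteIndex ∧ g ∉ H := fun g hg => by
    obtain ⟨hne, r, -, hr⟩ := hg
    exact Stab.exists_finiteIndex_notMem ((Units.coeHom _).comp φ) fun e =>
      hne (hkerfree g r hr (Units.ext e))
  choose K' hK' hgK using hsep
  have hLf : (⨅ t : hT.toFinset, K' t.1 (hT.mem_toFinset.1 t.2)).FiniteIndex :=
    Subgroup.finiteIndex_iInf fun t => hK' _ _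
  set L := (⨅ t : hT.toFinset, K' t.1 (hT.mem_toFinset.1 t.2)) with hLdef
  set H := L.normalCore
  have : H.FiniteIndex := Subgroup.finiteIndex_normalCore L
  have : Fintype (Γ ⧸ H) := Subgroup.fintypeQuotientOfFiniteIndex
  have hphase : PhaseQT H := hlin H n (φ.comp H.subtype) fun M hM hsol => by
    let ψ := φ.comp H.subtype
    let L' : Subgroup Γ := (M.comap ψ.rangeRestrict).map H.subtype
    have hMc : (M.comap ψ.rangeRestrict).FiniteIndex := ⟨by
      rw [M.index_comap_of_surjective ψ.rangeRestrict_surjective]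
      exact hM.index_ne_zero⟩
    have hL' : L'.FiniteIndex := finiteIndex_map_subtype hMc
    refine hns (L'.map φ.rangeRestrict) ⟨fun h0 => hL'.index_ne_zero <|
      Nat.eq_zero_of_zero_dvd (h0 ▸ L'.index_map_dvd (f := φ.rangeRestrict)
        φ.rangeRestrict_surjective)⟩ ?_
    let M' := M.map ψ.range.subtype
    have : Group.IsSolvable M' := Group.isSolvable_of_surjective
      (f := (M.equivMapOfInjective _ ψ.range.subtype_injective).toMonoidHom)
      (M.equivMapOfInjective _ ψ.range.subtype_injective).surjective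
    refine Group.isSolvable_of_isSolvable_injective
      (f := ((φ.range.subtype).comp (L'.map φ.rangeRestrict).subtype).codRestrict M' ?_)
      fun a b e => Subtype.ext (Subtype.ext (congrArg Subtype.val e :))
    rintro ⟨x, hx⟩
    obtain ⟨y, hy, rfl⟩ := hx
    obtain ⟨z, hz, rfl⟩ := hy
    exact ⟨ψ.rangeRestrict z, hz, rfl⟩
  refine hphase V G hc hf (Φ.comp H.subtype) (fun x v hv => ?_)
    ((univ ×ˢ R).image fun q : (Γ ⧸ H) × V => Φ q.1.out⁻¹ q.2) fun v => ?_
  · obtain ⟨g, hg⟩ := cover v
    have hfix : Φ (g * x * g⁻¹) (Φ g v) = Φ g v := by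
      rw [← RelIso.mul_apply, ← map_mul, inv_mul_cancel_right, map_mul, RelIso.mul_apply]
      exact congrArg (Φ g) hv
    by_contra hne
    have hne' : g * (x : Γ) * g⁻¹ ≠ 1 := fun e => hne (Subtype.ext (conj_eq_one_iff.1 e))
    have hmem : g * (x : Γ) * g⁻¹ ∈ L :=
      L.normalCore_le ((Subgroup.normalCore_normal L).conj_mem _ x.2 g)
    rw [hLdef, Subgroup.mem_iInf] at hmem
    exact hgK _ ⟨hne', _, hg, hfix⟩ (hmem ⟨_, hT.mem_toFinset.2 ⟨hne', _, hg, hfix⟩⟩)
  · obtain ⟨g, hg⟩ := cover v
    refine ⟨⟨(QuotientGroup.mk g : Γ ⧸ H).out⁻¹ * g, QuotientGroup.eq.1 (Quotient.out_eq _)⟩,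
      mem_image.2 ⟨(QuotientGroup.mk g, Φ g v), mem_product.2 ⟨mem_univ _, hg⟩, ?_⟩⟩
    simp [map_mul, RelIso.mul_apply]

/-- Expanding graphs with a symmetry group that is amenable by linear in characteristic zero. -/
theorem phase_of_expands_amenableKer (hker : PhaseKernel) {K : Type} [Field K] [CharZero K]
    {Γ : Type} [Group Γ] {n : ℕ} (φ : Γ →* GL (Fin n) K) (hN : Fol φ.ker) {V : Type}
    (G : SimpleGraph V) (hc : G.Connected) (hf : ∀ v, (G.neighborSet v).Finite)
    (Φ : Γ →* (G ≃g G)) (hstab : ∀ v, {g | Φ g v = v}.Finite)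
    (hkerfree : ∀ g v, Φ g v = v → φ g = 1 → g = 1) (R : Finset V)
    (cover : ∀ v, ∃ g, Φ g v ∈ R) {h : ℝ} (hh : 0 < h) (he : Expands G h) : pc G < pu G :=
  phase_of_expands_of_linear (fun _ _ _ ψ hψ => phaseQT_linear hker ψ hψ) φ hN G hc hf Φ hstab
    hkerfree R cover hh he

end Vale.Agent.P165.EX.Lin
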