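import Mathlib

/-!
# Roots of characters on subgroups of finite index
-/

namespace Vale.Agent.P165.EX.Lin

/-- On a subgroup of finite index of a finitely generated group a character with values in an
algebraically closed field has an `m`-th root. -/
theorem exists_root_hom {G : Type} [Group G] [Group.FG G] {K : Type} [Field K] [IsAlgClosed K]
    (χ : G →* Kˣ) {m : ℕ} (hm : 0 < m) :
    ∃ L : Subgroup G, L.FiniteIndex ∧ ∃ ψ : L →* Kˣ, ∀ g, ψ g ^ m = χ g := by
  classical
  let A := χ.range
  have : Group.FG A := Group.fg_range χ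
  have : Module.Finite ℤ (Additive A) := by
    rw [Module.Finite.iff_addGroup_fg]
    infer_instance
  let T := CommGroup.torsion A
  have : Module.Finite ℤ (Additive T) :=
    Module.Finite.of_injective (MonoidHom.toAdditive T.subtype).toIntLinearMap T.subtype_injective
  have : Group.FG T := GroupFG.iff_add_fg.2 (Module.Finite.iff_addGroup_fg.1 inferInstance)
  have : Finite T := CommGroup.finite_of_fg_isMulTorsion T fun x => by
    obtain ⟨y, hy⟩ := x
    obtain ⟨e, he, he'⟩ := isOfFinOrder_iff_pow_eq_one.1 hy
    exact isOfFinOrder_iff_pow_eq_one.2 ⟨e, he, Subtype.ext he'⟩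
  set e := Nat.card T with he
  have he0 : e ≠ 0 := Nat.card_pos.ne'
  let P : A →* A := powMonoidHom e
  let B := P.range
  have hBfin : B.FiniteIndex := by
    have : Group.FG (A ⧸ B) := QuotientGroup.fg B
    have : Finite (A ⧸ B) := CommGroup.finite_of_fg_isMulTorsion (A ⧸ B) fun x => by
      induction x using QuotientGroup.induction_on with
      | _ a =>
        exact isOfFinOrder_iff_pow_eq_one.2 ⟨e, Nat.pos_of_ne_zero he0,
          (QuotientGroup.eq_one_iff _).2 ⟨a, rfl⟩⟩
    exact Subgroup.finiteIndex_of_finite_quotient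
  have : Group.FG B := by
    exact Group.fg_range P
  have : Module.Finite ℤ (Additive B) := by
    rw [Module.Finite.iff_addGroup_fg]
    infer_instance
  have htf : ∀ x : B, IsOfFinOrder x → x = 1 := by
    rintro ⟨_, a, rfl⟩ hx
    obtain ⟨k, hk, hk'⟩ := isOfFinOrder_iff_pow_eq_one.1 hx
    have ha : a ∈ T := isOfFinOrder_iff_pow_eq_one.2 ⟨e * k, by positivity, by
      have := congrArg Subtype.val hk'
      rw [pow_mul]
      exact this⟩
    refine Subtype.ext ?_
    change a ^ e = 1
    have h := pow_card_eq_one' (x := (⟨a, ha⟩ : T))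
    exact congrArg Subtype.val h
  have : IsMulTorsionFree B := IsMulTorsionFree.of_not_isOfFinOrder fun x hx h => hx (htf x h)
  have : IsAddTorsionFree (Additive B) := inferInstance
  have : Module.IsTorsionFree ℤ (Additive B) := inferInstance
  have : Module.Free ℤ (Additive B) := inferInstance
  set b := Module.Free.chooseBasis ℤ (Additive B)
  have hroot : ∀ i, ∃ r : Kˣ, r ^ m = ((Additive.toMul (b i)).1.1 : Kˣ) := by
    intro i
    obtain ⟨z, hz⟩ := IsAlgClosed.exists_pow_nat_eq (((Additive.toMul (b i)).1.1 : Kˣ) : K) hm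
    have hz0 : z ≠ 0 := fun h => (Additive.toMul (b i)).1.1.ne_zero (by rw [← hz, h, zero_pow hm.ne'])
    exact ⟨Units.mk0 z hz0, Units.ext (by simpa using hz)⟩
  choose r hr using hroot
  let ψ₀ : Additive B →ₗ[ℤ] Additive Kˣ := b.constr ℕ fun i => Additive.ofMul (r i)
  let inc : Additive B →ₗ[ℤ] Additive Kˣ :=
    (MonoidHom.toAdditive ((Subgroup.subtype A).comp B.subtype)).toIntLinearMap
  have heq : (m : ℤ) • ψ₀ = inc := b.ext fun i => by
    rw [LinearMap.smul_apply, natCast_zsmul, Module.Basis.constr_basis, ← ofMul_pow, hr]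
    rfl
  let χ' : G →* A := χ.rangeRestrict
  have : (B.comap χ').FiniteIndex := by
    refine ⟨?_⟩
    rw [Subgroup.index_comap_of_surjective _ χ.rangeRestrict_surjective]
    exact hBfin.index_ne_zero
  let toB : B.comap χ' →* B := (χ'.comp (B.comap χ').subtype).codRestrict B fun g => g.2
  refine ⟨B.comap χ', inferInstance, (MonoidHom.toAdditive.symm ψ₀.toAddMonoidHom).comp toB,
    fun g => ?_⟩
  have h := LinearMap.congr_fun heq (Additive.ofMul (toB g))
  rw [LinearMap.smul_apply, natCast_zsmul] at h
  exact congrArg Additive.toMul h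

end Vale.Agent.P165.EX.Lin
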