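import Vale.Agent.P165.EX.Lin.Solv
import Vale.Agent.P165.EX.Lin.Root
import Vale.Agent.P165.EX.Red.Strong
import Vale.Agent.P165.EX.Red.Factors
import Vale.Agent.P165.EX.Chev.Burnside

/-!
# A strongly irreducible constituent of an image that is not virtually solvable
-/

namespace Vale.Agent.P165.EX.Lin

open Matrix Finset
open scoped MatrixGroups commutatorElement

variable {Γ : Type} [Group Γ] {K : Type} [Field K]

theorem dser_map {Δ : Type} [Group Δ] (f : Δ →* Γ) (M : Subgroup Δ) :
    ∀ j, dser (M.map f) j = (dser M j).map f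
  | 0 => rfl
  | j + 1 => by
    change ⁅dser (M.map f) j, dser (M.map f) j⁆ = (⁅dser M j, dser M j⁆ : Subgroup Δ).map f
    rw [Subgroup.map_commutator, dser_map f M j]

theorem finiteIndex_map_subtype {H : Subgroup Γ} [H.FiniteIndex] {L : Subgroup H}
    (hL : L.FiniteIndex) : (L.map H.subtype).FiniteIndex :=
  ⟨by
    rw [Subgroup.index_map_subtype]
    exact mul_ne_zero hL.index_ne_zero Subgroup.FiniteIndex.index_ne_zero⟩

theorem nonSolv_restrict {M : Type} [Monoid M] {f : Γ →* M} (h : NonSolv f) (H : Subgroup Γ)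
    [H.FiniteIndex] : NonSolv (f.comp H.subtype) := fun L hL j => by
  obtain ⟨g, hg, hne⟩ := h _ (finiteIndex_map_subtype hL) j
  rw [dser_map] at hg
  obtain ⟨x, hx, rfl⟩ := hg
  exact ⟨x, hx, hne⟩

/-- A character dies on commutators. -/
theorem char_eq_one {A : Type} [CommGroup A] (χ : Γ →* A) (L : Subgroup Γ) (j : ℕ) {g : Γ}
    (hg : g ∈ dser L (j + 1)) : χ g = 1 := by
  have : (⁅dser L j, dser L j⁆ : Subgroup Γ) ≤ χ.ker := Subgroup.commutator_le.2 fun a _ b _ => by
    rw [MonoidHom.mem_ker, map_commutatorElement, commutatorElement_def]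
    simp [mul_comm]
  exact MonoidHom.mem_ker.1 (this hg)

variable {n : ℕ}

/-- A strongly irreducible representation twisted into the special linear group. -/
theorem exists_twist [IsAlgClosed K] [Group.FG Γ] (rep : Γ →* Matrix (Fin n) (Fin n) K)
    (hn : 0 < n) (h : NonSolv rep)
    (hirr : ∀ L : Subgroup Γ, L.FiniteIndex → ∀ W, Red.Stable rep L W → W = ⊥ ∨ W = ⊤) :
    ∃ L : Subgroup Γ, L.FiniteIndex ∧ ∃ σ : L →* SL(n, K),
      Red.StronglySpanning σ ∧ NonSolv σ := by
  let χ : Γ →* Kˣ := Units.map (detMonoidHom (n := Fin n) (R := K)) |>.comp rep.toHomUnits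
  have hχ : ∀ g, (χ g : K) = (rep g).det := fun g => rfl
  obtain ⟨L, hL, ψ, hψ⟩ := exists_root_hom χ hn
  have hψ' : ∀ g : L, (ψ g : K) ^ n = (rep g).det := fun g => by
    rw [← Units.val_pow_eq_pow_val, hψ g, hχ]
  let σ : L →* SL(n, K) :=
    { toFun := fun g => ⟨((ψ g)⁻¹ : Kˣ).1 • rep g, by
        rw [det_smul, Fintype.card_fin, ← hψ' g, ← mul_pow, Units.inv_mul, one_pow]⟩
      map_one' := Subtype.ext (by simp)
      map_mul' := fun a b => Subtype.ext (by
        show ((ψ (a * b))⁻¹ : Kˣ).1 • rep ((a : Γ) * b) = (((ψ a)⁻¹ : Kˣ).1 • rep a) * (((ψ b)⁻¹ : Kˣ).1 • rep b)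
        rw [map_mul, map_mul, mul_inv, Units.val_mul, smul_mul_assoc, mul_smul_comm, smul_smul]) }
  have hσ : ∀ g : L, (σ g : Matrix (Fin n) (Fin n) K) = ((ψ g)⁻¹ : Kˣ).1 • rep g := fun g => rfl
  refine ⟨L, hL, σ, fun M hM => ?_, fun M hM j => ?_⟩
  · have hs := Chev.spanning_of_irreducible (σ.comp M.subtype) fun W hW =>
      hirr _ (finiteIndex_map_subtype hM) W fun g hg v hv => by
        obtain ⟨x, hx, rfl⟩ := hg
        have h1 := W.smul_mem (ψ x : K) (hW ⟨x, hx⟩ v hv)
        change (ψ x : K) • ((σ x : Matrix (Fin n) (Fin n) K) *ᵥ v) ∈ W at h1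
        rw [hσ, smul_mulVec, smul_smul, Units.mul_inv, one_smul] at h1
        rw [toLin'_apply]
        exact h1
    rw [Semi.Spanning] at hs
    rw [← hs]
    refine congrArg (Submodule.span K) (Set.ext fun A => ⟨?_, ?_⟩)
    · rintro ⟨g, hg, rfl⟩
      exact ⟨⟨g, hg⟩, rfl⟩
    · rintro ⟨g, rfl⟩
      exact ⟨g, g.2, rfl⟩
  · obtain ⟨g, hg, hne⟩ := nonSolv_restrict h L M hM (j + 1)
    refine ⟨g, dser_antitone M (Nat.le_succ j) hg, fun h1 => hne ?_⟩
    have h2 := congrArg (fun A : SL(n, K) => (A : Matrix (Fin n) (Fin n) K)) h1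
    simpa [hσ, char_eq_one ψ M j hg] using h2

/-- The action on a stable subspace, or on the quotient by it, as matrices. -/
theorem exists_pieces (rep : Γ →* Matrix (Fin n) (Fin n) K) (h : NonSolv rep) (L : Subgroup Γ)
    [L.FiniteIndex] (W : Submodule K (Fin n → K)) (hW : Red.Stable rep L W) (hbot : W ≠ ⊥)
    (htop : W ≠ ⊤) : ∃ d < n, ∃ r : L →* Matrix (Fin d) (Fin d) K, NonSolv r := by
  classical
  let b := Module.finBasis K W
  let c := Module.finBasis K ((Fin n → K) ⧸ W)
  let r₁ : L →* Matrix (Fin _) (Fin _) K :=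
    (LinearMap.toMatrixAlgEquiv b).toMulEquiv.toMonoidHom.comp (Red.onSub hW)
  let q : L →* Module.End K ((Fin n → K) ⧸ W) :=
    { toFun := fun g => W.mapQ W (toLin' (rep g)) (hW g g.2)
      map_one' := Submodule.linearMap_qext _ (LinearMap.ext fun v => by simp)
      map_mul' := fun x y => Submodule.linearMap_qext _ (LinearMap.ext fun v => by
        simp [mulVec_mulVec]) }
  let r₂ : L →* Matrix (Fin _) (Fin _) K :=
    (LinearMap.toMatrixAlgEquiv c).toMulEquiv.toMonoidHom.comp q
  have hd1 : Module.finrank K W < n := by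
    have := Submodule.finrank_lt htop
    rwa [Module.finrank_fin_fun] at this
  have hd2 : Module.finrank K ((Fin n → K) ⧸ W) < n := by
    have := Submodule.finrank_quotient_add_finrank W
    have h0 : Module.finrank K W ≠ 0 := fun h => hbot (Submodule.finrank_eq_zero.1 h)
    rw [Module.finrank_fin_fun] at this
    omega
  by_contra hno
  push Not at hno
  have k1 := hno _ hd1 r₁
  have k2 := hno _ hd2 r₂
  simp only [NonSolv, not_forall, not_exists, not_and, not_not] at k1 k2
  obtain ⟨L₁, hL₁, j₁, hk₁⟩ := k1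
  obtain ⟨L₂, hL₂, j₂, hk₂⟩ := k2
  obtain ⟨g, hg, hne⟩ := nonSolv_restrict h L (L₁ ⊓ L₂) inferInstance (max j₁ j₂ + 1)
  refine hne ?_
  have triv : ∀ x ∈ dser (L₁ ⊓ L₂) (max j₁ j₂), ∀ v,
      toLin' (rep x) v - v ∈ W ∧ ∀ w ∈ W, toLin' (rep x) w = w := by
    intro x hx v
    have h1 := hk₁ x (dser_antitone L₁ (le_max_left _ _) (dser_mono inf_le_left _ hx))
    have h2 := hk₂ x (dser_antitone L₂ (le_max_right _ _) (dser_mono inf_le_right _ hx))
    have e1 : Red.onSub hW x = 1 :=
      (LinearMap.toMatrixAlgEquiv b).injective (h1.trans (map_one _).symm)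
    have e2 : q x = 1 := (LinearMap.toMatrixAlgEquiv c).injective (h2.trans (map_one _).symm)
    refine ⟨(Submodule.Quotient.eq W).1 (LinearMap.congr_fun e2 (Submodule.Quotient.mk v)),
      fun w hw => ?_⟩
    exact congrArg Subtype.val (LinearMap.congr_fun e1 ⟨w, hw⟩)
  have hker : (dser (L₁ ⊓ L₂) (max j₁ j₂ + 1)) ≤ (rep.comp L.subtype).toHomUnits.ker := by
    refine Subgroup.commutator_le.2 fun x hx y hy => ?_
    have hcomm : rep x * rep y = rep y * rep x := by
      refine toLin'.injective (LinearMap.ext fun v => ?_)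
      rw [toLin'_mul, toLin'_mul, LinearMap.comp_apply, LinearMap.comp_apply]
      obtain ⟨hxv, hxw⟩ := triv x hx v
      obtain ⟨hyv, hyw⟩ := triv y hy v
      have e1 := hxw _ hyv
      have e2 := hyw _ hxv
      rw [map_sub, sub_eq_iff_eq_add] at e1 e2
      rw [e1, e2]
      abel
    have hc' : (rep.comp L.subtype).toHomUnits x * (rep.comp L.subtype).toHomUnits y =
        (rep.comp L.subtype).toHomUnits y * (rep.comp L.subtype).toHomUnits x := Units.ext hcomm
    rw [MonoidHom.mem_ker, map_commutatorElement, commutatorElement_eq_one_iff_mul_comm]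
    exact hc'
  exact congrArg Units.val (MonoidHom.mem_ker.1 (hker hg))

/-- A constituent of degree at least two, strongly irreducible, in the special linear group and
with image that is not virtually solvable. -/
theorem exists_constituent [IsAlgClosed K] : ∀ (n : ℕ) (Γ : Type) [Group Γ] [Group.FG Γ]
    (rep : Γ →* Matrix (Fin n) (Fin n) K), NonSolv rep →
    ∃ (L : Type) (_ : Group L) (_ : Group.FG L) (ι : L →* Γ), Function.Injective ι ∧
      ι.range.FiniteIndex ∧ ∃ m, 2 ≤ m ∧ ∃ σ : L →* SL(m, K),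
        Red.StronglySpanning σ ∧ NonSolv σ := by
  intro n
  induction n using Nat.strong_induction_on with
  | _ n ih =>
    intro Γ _ _ rep h
    by_cases hirr : ∀ L : Subgroup Γ, L.FiniteIndex → ∀ W, Red.Stable rep L W → W = ⊥ ∨ W = ⊤
    · have hn : 2 ≤ n := by
        by_contra hn
        obtain ⟨g, hg, hne⟩ := h ⊤ inferInstance 1
        refine hne ?_
        have hsub : Subsingleton (Fin n) := Fin.subsingleton_iff_le_one.2 (by omega)
        have hle : (dser (⊤ : Subgroup Γ) 1) ≤ rep.toHomUnits.ker := by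
          refine Subgroup.commutator_le.2 fun x _ y _ => ?_
          rw [MonoidHom.mem_ker, map_commutatorElement, commutatorElement_eq_one_iff_mul_comm]
          refine Units.ext (Matrix.ext fun a b => ?_)
          change (rep x * rep y) a b = (rep y * rep x) a b
          simp only [mul_apply]
          exact sum_congr rfl fun l _ => by
            rw [Subsingleton.elim l a, Subsingleton.elim b a, mul_comm]
        exact congrArg Units.val (MonoidHom.mem_ker.1 (hle hg))
      obtain ⟨L, hL, σ, hs, hns⟩ := exists_twist rep (by omega) h hirr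
      exact ⟨L, inferInstance, inferInstance, L.subtype, L.subtype_injective,
        by rw [Subgroup.range_subtype]; exact hL, n, hn, σ, hs, hns⟩
    · simp only [not_forall, not_or] at hirr
      obtain ⟨L, hL, W, hW, hbot, htop⟩ := hirr
      obtain ⟨d, hd, r, hr⟩ := exists_pieces rep h L W hW hbot htop
      obtain ⟨L', i1, i2, ι, hι, hfin, m, hm, σ, hs, hns⟩ := ih d hd L r hr
      refine ⟨L', i1, i2, L.subtype.comp ι, L.subtype_injective.comp hι, ?_, m, hm, σ, hs, hns⟩
      rw [MonoidHom.range_comp]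
      exact finiteIndex_map_subtype hfin

end Vale.Agent.P165.EX.Lin
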