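import Vale.Agent.P165.Defs
import Mathlib

/-!
# Virtually solvable groups act only on amenable graphs

Følner sets exist in abelian groups by polynomial growth and pass through extensions. So a
virtually solvable group with an action with finite stabilisers and finitely many orbits forces the
vertex expansion constant zero.
-/

namespace Vale.Agent.P165.EX.Lin

open Finset
open scoped Pointwise

/-- For every finite set there are finite sets with arbitrarily small outer boundary. -/
def Fol (G : Type) [Group G] : Prop :=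
  ∀ (_ : DecidableEq G) (S : Finset G) (k : ℕ), ∃ A : Finset G, A.Nonempty ∧ k * ((A * S) \ A).card ≤ A.card

theorem fol_comm (G : Type) [CommGroup G] : Fol G := by
  intro _ S k
  classical
  set T := insert 1 S
  let B : ℕ → Finset G := fun j =>
    (Fintype.piFinset fun _ : T => range (j + 1)).image fun a => ∏ s : T, (s : G) ^ a s
  have hone : ∀ j, (1 : G) ∈ B j := fun j =>
    mem_image.2 ⟨fun _ => 0, Fintype.mem_piFinset.2 fun _ => mem_range.2 (Nat.succ_pos _), by simp⟩
  have hmul : ∀ j, B j * S ⊆ B (j + 1) := by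
    intro j x hx
    obtain ⟨y, hy, s, hs, rfl⟩ := mem_mul.1 hx
    obtain ⟨a, ha, rfl⟩ := mem_image.1 hy
    rw [Fintype.mem_piFinset] at ha
    let s' : T := ⟨s, mem_insert_of_mem hs⟩
    refine mem_image.2 ⟨fun t => a t + (if t = s' then 1 else 0), Fintype.mem_piFinset.2 fun t => ?_, ?_⟩
    · have := mem_range.1 (ha t)
      rw [mem_range]
      split_ifs <;> omega
    · simp only [pow_add, prod_mul_distrib]
      congr 1
      rw [prod_eq_single s' (fun t _ ht => by rw [if_neg ht, pow_zero]) (by simp)]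
      simp [s']
  have hsub : ∀ j, B j ⊆ B (j + 1) := fun j => by
    refine image_subset_image (Fintype.piFinset_subset _ _ fun _ => ?_)
    exact range_subset_range.2 (by omega)
  by_contra hno
  push Not at hno
  have hk : 0 < k := Nat.pos_of_ne_zero fun h0 => by
    have := hno {1} (singleton_nonempty _)
    simp [h0] at this
  have hgrow : ∀ j, ((1 : ℝ) + 1 / k) ^ j ≤ ((B j).card : ℝ) := by
    intro j
    induction j with
    | zero => simpa using card_pos.2 ⟨1, hone 0⟩
    | succ j ih =>
      have h := hno (B j) ⟨1, hone j⟩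
      have h1 : ((B j * S) \ B j).card ≤ (B (j + 1)).card - (B j).card := by
        rw [← card_sdiff_of_subset (hsub j)]
        exact card_le_card (sdiff_subset_sdiff (hmul j) le_rfl)
      have h2 : ((B j).card : ℝ) ≤ k * (((B (j + 1)).card : ℝ) - (B j).card) := by
        rw [← Nat.cast_sub (card_le_card (hsub j))]
        exact_mod_cast h.le.trans (Nat.mul_le_mul_left k h1)
      rw [pow_succ]
      refine (mul_le_mul_of_nonneg_right ih (by positivity)).trans ?_
      have hkR : (0 : ℝ) < k := by exact_mod_cast hk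
      rw [mul_add, mul_one, mul_one_div, ← le_sub_iff_add_le', div_le_iff₀ hkR, mul_comm]
      exact h2
  have hcard : ∀ j, ((B j).card : ℝ) ≤ ((j + 1 : ℕ) : ℝ) ^ T.card := fun j => by
    have := card_image_le (s := Fintype.piFinset fun _ : T => range (j + 1))
      (f := fun a => ∏ s : T, (s : G) ^ a s)
    rw [Fintype.card_piFinset, prod_const, card_range, card_univ, Fintype.card_coe] at this
    exact_mod_cast this
  have hlim := tendsto_pow_const_div_const_pow_of_one_lt T.card
    (show (1 : ℝ) < 1 + 1 / k by have : (0 : ℝ) < k := by exact_mod_cast hk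
                                 linarith [one_div_pos.2 this])
  have hpos : (0 : ℝ) < 1 + 1 / k := by positivity
  obtain ⟨j, hj, hj1⟩ := ((hlim.eventually_lt_const (show (0 : ℝ) < 1 / (1 + 1 / k) by positivity)).and
    (Filter.eventually_ge_atTop 1)).exists
  obtain ⟨i, rfl⟩ := Nat.exists_eq_add_of_le' hj1
  have := (hgrow i).trans (hcard i)
  rw [div_lt_div_iff₀ (by positivity) hpos, pow_succ, one_mul] at hj
  exact absurd (mul_le_mul_of_nonneg_right this hpos.le) (not_le.2 hj)

theorem fol_finite (G : Type) [Group G] [Finite G] : Fol G := by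
  classical
  intro _ S k
  have := Fintype.ofFinite G
  refine ⟨univ, univ_nonempty, ?_⟩
  rw [sdiff_eq_empty_iff_subset.2 (subset_univ _), card_empty, mul_zero]
  exact Nat.zero_le _

/-- Følner sets pass through extensions. -/
theorem fol_extension {G : Type} [Group G] (N : Subgroup G) [N.Normal] (hN : Fol N)
    (hQ : Fol (G ⧸ N)) : Fol G := by
  classical
  intro _ S k
  obtain ⟨B, hBne, hB⟩ := hQ inferInstance (S.image QuotientGroup.mk) (2 * k * S.card)
  set R : Finset G := B.image Quotient.out
  have hRcard : R.card = B.card := card_image_of_injective _ Quotient.out_injective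
  set T : Finset N := ((R ×ˢ S) ×ˢ R).image fun q =>
    if h : q.1.1 * q.1.2 * q.2⁻¹ ∈ N then (⟨_, h⟩ : N) else 1
  obtain ⟨F, hFne, hF⟩ := hN inferInstance T (2 * k)
  let A : Finset G := (F ×ˢ R).image fun q => (q.1 : G) * q.2
  have hR : ∀ r ∈ R, (QuotientGroup.mk r : G ⧸ N).out = r := fun r hr => by
    obtain ⟨b, -, rfl⟩ := mem_image.1 hr
    exact congrArg Quotient.out (Quotient.out_eq b)
  have hmk : ∀ (f : N) (r : G), (QuotientGroup.mk ((f : G) * r) : G ⧸ N) = QuotientGroup.mk r :=
    fun f r => by rw [QuotientGroup.mk_mul, (QuotientGroup.eq_one_iff _).2 f.2, one_mul]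
  have hAcard : A.card = F.card * R.card := by
    rw [← card_product]
    refine card_image_of_injOn fun a ha b hb e => ?_
    simp only [coe_product, Set.mem_prod, mem_coe] at ha hb
    have h2 : a.2 = b.2 := by
      rw [← hR a.2 ha.2, ← hR b.2 hb.2, ← hmk a.1 a.2, ← hmk b.1 b.2]
      exact congrArg (fun g : G => (QuotientGroup.mk g : G ⧸ N).out) e
    exact Prod.ext (Subtype.ext (mul_right_cancel (h2 ▸ e : (a.1 : G) * b.2 = b.1 * b.2))) h2
  set X : Finset (G × G) := (R ×ˢ S).filter fun q => (QuotientGroup.mk (q.1 * q.2) : G ⧸ N) ∉ B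
  have hX : X.card ≤ S.card * ((B * S.image QuotientGroup.mk) \ B).card := by
    have hinj : X.card ≤ (((B * S.image QuotientGroup.mk) \ B) ×ˢ S).card := by
      refine card_le_card_of_injOn (fun q => ((QuotientGroup.mk (q.1 * q.2) : G ⧸ N), q.2))
        (fun q hq => ?_) fun a ha b hb e => ?_
      · rw [mem_coe, mem_filter, mem_product] at hq
        obtain ⟨b, hb, hbr⟩ := mem_image.1 hq.1.1
        have hmem : (QuotientGroup.mk q.1 : G ⧸ N) ∈ B := by
          have e : (QuotientGroup.mk q.1 : G ⧸ N) = b := hbr ▸ Quotient.out_eq b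
          rw [e]; exact hb
        exact mem_product.2 ⟨mem_sdiff.2 ⟨mem_mul.2 ⟨_, hmem, _, mem_image_of_mem _ hq.1.2, rfl⟩,
          hq.2⟩, hq.1.2⟩
      · rw [mem_coe, mem_filter, mem_product] at ha hb
        obtain ⟨e1, e2⟩ := Prod.ext_iff.1 e
        simp only at e1 e2
        rw [QuotientGroup.mk_mul, QuotientGroup.mk_mul, e2, mul_left_inj] at e1
        refine Prod.ext ?_ e2
        rw [← hR _ ha.1.1, ← hR _ hb.1.1, e1]
    rwa [card_product, mul_comm] at hinj
  have hsub : (A * S) \ A ⊆ ((F ×ˢ X).image fun q => (q.1 : G) * (q.2.1 * q.2.2)) ∪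
      ((((F * T) \ F) ×ˢ R).image fun q => (q.1 : G) * q.2) := by
    intro x hx
    obtain ⟨hx, hxA⟩ := mem_sdiff.1 hx
    obtain ⟨a, ha, s, hs, rfl⟩ := mem_mul.1 hx
    obtain ⟨⟨f, r⟩, hfr, rfl⟩ := mem_image.1 ha
    rw [mem_product] at hfr
    by_cases hB' : (QuotientGroup.mk (r * s) : G ⧸ N) ∈ B
    · set r' := (QuotientGroup.mk (r * s) : G ⧸ N).out
      have hr' : r' ∈ R := mem_image_of_mem _ hB'
      have hmem : r * s * r'⁻¹ ∈ N := by
        rw [← QuotientGroup.eq_one_iff, QuotientGroup.mk_mul, QuotientGroup.mk_inv,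
          QuotientGroup.out_eq', mul_inv_cancel]
      set t : N := ⟨_, hmem⟩
      have ht : t ∈ T := mem_image.2 ⟨((r, s), r'), mem_product.2 ⟨mem_product.2 ⟨hfr.2, hs⟩, hr'⟩,
        by rw [dif_pos hmem]⟩
      have heq : ((f * t : N) : G) * r' = (f : G) * r * s := by simp [t, mul_assoc]
      refine mem_union_right _ (mem_image.2 ⟨(f * t, r'), mem_product.2
        ⟨mem_sdiff.2 ⟨mul_mem_mul hfr.1 ht, fun hF' => hxA ?_⟩, hr'⟩, heq⟩)
      exact mem_image.2 ⟨(f * t, r'), mem_product.2 ⟨hF', hr'⟩, heq⟩
    · exact mem_union_left _ (mem_image.2 ⟨(f, r, s),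
        mem_product.2 ⟨hfr.1, mem_filter.2 ⟨mem_product.2 ⟨hfr.2, hs⟩, hB'⟩⟩, by simp [mul_assoc]⟩)
  refine ⟨A, card_pos.1 (by rw [hAcard, hRcard]; exact Nat.mul_pos hFne.card_pos hBne.card_pos), ?_⟩
  have h1 := ((card_le_card hsub).trans (card_union_le _ _)).trans
    (add_le_add card_image_le card_image_le)
  rw [card_product, card_product] at h1
  rw [hAcard]
  have h2 : 2 * (k * ((A * S) \ A).card) ≤ 2 * (F.card * R.card) := by
    calc 2 * (k * ((A * S) \ A).card)
        ≤ 2 * (k * (F.card * X.card + ((F * T) \ F).card * R.card)) :=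
          Nat.mul_le_mul_left _ (Nat.mul_le_mul_left _ h1)
      _ ≤ F.card * (2 * k * S.card * ((B * S.image QuotientGroup.mk) \ B).card) +
            (2 * k * ((F * T) \ F).card) * R.card := by
          rw [mul_add, mul_add]
          refine add_le_add ?_ (le_of_eq (by ring))
          calc 2 * (k * (F.card * X.card)) = F.card * (2 * k * X.card) := by ring
            _ ≤ F.card * (2 * k * (S.card * ((B * S.image QuotientGroup.mk) \ B).card)) :=
              Nat.mul_le_mul_left _ (Nat.mul_le_mul_left _ hX)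
            _ = _ := by ring
      _ ≤ F.card * R.card + F.card * R.card := by
          rw [hRcard]
          exact add_le_add (Nat.mul_le_mul_left _ hB) (Nat.mul_le_mul_right _ hF)
      _ = _ := by ring
  omega

/-- Solvable groups have Følner sets. -/
theorem fol_solvable : ∀ (j : ℕ) (G : Type) [Group G], derivedSeries G j = ⊥ → Fol G := by
  intro j
  induction j with
  | zero =>
    intro G _ h
    have : Subsingleton G := subsingleton_iff.2 fun a b => by
      rw [derivedSeries_zero] at h
      have ha : a ∈ (⊥ : Subgroup G) := h ▸ Subgroup.mem_top a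
      have hb : b ∈ (⊥ : Subgroup G) := h ▸ Subgroup.mem_top b
      rw [Subgroup.mem_bot] at ha hb
      rw [ha, hb]
    exact fol_finite G
  | succ j ih =>
    intro G _ h
    refine fol_extension (commutator G) (ih _ ?_) (fol_comm (Abelianization G))
    have key : ∀ i, (derivedSeries (commutator G) i).map (commutator G).subtype ≤
        derivedSeries G (i + 1) := by
      intro i
      induction i with
      | zero => rw [derivedSeries_one]; exact Subgroup.map_subtype_le _
      | succ i hi =>
        rw [derivedSeries_succ, derivedSeries_succ G (i + 1), Subgroup.map_commutator]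
        exact Subgroup.commutator_mono hi hi
    refine (Subgroup.map_eq_bot_iff_of_injective _ (commutator G).subtype_injective).1 ?_
    exact le_bot_iff.1 ((key j).trans h.le)

/-- A group with a solvable subgroup of finite index has Følner sets. -/
theorem fol_virtuallySolvable {G : Type} [Group G] (H : Subgroup G) [H.FiniteIndex]
    (hH : Group.IsSolvable H) : Fol G := by
  have hN : Group.IsSolvable H.normalCore := haveI := hH; Group.isSolvable_of_isSolvable_injective
    (f := Subgroup.inclusion H.normalCore_le) (Subgroup.inclusion_injective _)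
  obtain ⟨j, hj⟩ := (Group.isSolvable_def _).1 hN
  have : Finite (G ⧸ H.normalCore) := Subgroup.finite_quotient_of_finiteIndex
  exact fol_extension H.normalCore (fol_solvable j _ hj) (fol_finite _)

/-- Such a group acts properly and cofinitely only on amenable graphs. -/
theorem not_expands {Γ : Type} [Group Γ] (hfol : Fol Γ) {V : Type} {G : SimpleGraph V}
    (hc : G.Connected) (hf : ∀ v, (G.neighborSet v).Finite) (Φ : Γ →* (G ≃g G))
    (hstab : ∀ v, {g | Φ g v = v}.Finite) (R : Finset V) (cover : ∀ v, ∃ g, Φ g v ∈ R)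
    {h : ℝ} (hh : 0 < h) : ¬ Expands G h := by
  classical
  intro he
  have key : ∀ g h v, Φ (g * h) v = Φ g (Φ h v) := fun g h v => by rw [map_mul]; rfl
  have hinv : ∀ g v, Φ g (Φ g⁻¹ v) = v := fun g v => by
    rw [← key, mul_inv_cancel, map_one]; rfl
  have hfib : ∀ r u, {g | Φ g r = u}.Finite := fun r u => by
    rcases Set.eq_empty_or_nonempty {g | Φ g r = u} with h | ⟨a, ha⟩
    · exact h ▸ Set.finite_empty
    · refine ((hstab r).image (a * ·)).subset fun b hb => ⟨a⁻¹ * b, ?_, by simp⟩
      show Φ (a⁻¹ * b) r = r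
      rw [key, show Φ b r = u from hb, ← show Φ a r = u from ha, ← key, inv_mul_cancel, map_one]
      rfl
  obtain ⟨v₀⟩ := hc.nonempty
  obtain ⟨g₀, hg₀⟩ := cover v₀
  set r₀ := Φ g₀ v₀
  have hSfin : (⋃ r ∈ R, ⋃ u ∈ G.neighborSet r, ⋃ r' ∈ R, {g | Φ g r' = u}).Finite :=
    R.finite_toSet.biUnion fun r _ => (hf r).biUnion fun u _ =>
      R.finite_toSet.biUnion fun r' _ => hfib r' u
  set S := hSfin.toFinset
  set M := (hstab r₀).toFinset.card + 1
  obtain ⟨k, hk⟩ := exists_nat_gt ((R.card : ℝ) * M / h)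
  obtain ⟨A, hAne, hA⟩ := hfol inferInstance S k
  set VA := (A ×ˢ R).image fun q => Φ q.1 q.2
  have hAV : A.card ≤ M * VA.card := by
    calc A.card ≤ M * (A.image fun a => Φ a r₀).card := by
          refine card_le_mul_card_image _ _ fun v hv => ?_
          obtain ⟨a, ha, rfl⟩ := mem_image.1 hv
          refine (card_le_card_of_injOn (t := (hstab r₀).toFinset) (fun x => a⁻¹ * x)
            (fun x hx => ?_) fun x _ y _ e => mul_left_cancel e).trans (Nat.le_succ _)
          rw [mem_coe, mem_filter] at hx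
          rw [mem_coe, Set.Finite.mem_toFinset, Set.mem_ofPred_eq, key, hx.2, ← key, inv_mul_cancel,
            map_one]
          rfl
      _ ≤ M * VA.card := Nat.mul_le_mul_left _ (card_le_card fun v hv => by
          obtain ⟨a, ha, rfl⟩ := mem_image.1 hv
          exact mem_image.2 ⟨(a, r₀), mem_product.2 ⟨ha, hg₀⟩, rfl⟩)
  have hbd : vertexBoundary G VA ⊆ ↑((((A * S) \ A) ×ˢ R).image fun q => Φ q.1 q.2) := by
    rintro v ⟨hv, u, hu, huv⟩
    obtain ⟨⟨a, r⟩, har, rfl⟩ := mem_image.1 hu
    rw [mem_product] at har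
    obtain ⟨g, hg⟩ := cover (Φ a⁻¹ v)
    have hs : g⁻¹ ∈ S := by
      refine hSfin.mem_toFinset.2 (Set.mem_biUnion har.2 (Set.mem_biUnion (x := Φ a⁻¹ v) ?_
        (Set.mem_biUnion hg ?_)))
      · have := (Φ a⁻¹).map_rel_iff.2 huv
        change G.Adj (Φ a⁻¹ (Φ a r)) (Φ a⁻¹ v) at this
        rwa [← key, inv_mul_cancel, map_one] at this
      · change Φ g⁻¹ (Φ g (Φ a⁻¹ v)) = Φ a⁻¹ v
        rw [← key, inv_mul_cancel, map_one]; rfl
    have heq : Φ (a * g⁻¹) (Φ g (Φ a⁻¹ v)) = v := by
      rw [← key, ← key, show a * g⁻¹ * g * a⁻¹ = 1 by group, map_one]; rfl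
    refine mem_coe.2 (mem_image.2 ⟨(a * g⁻¹, Φ g (Φ a⁻¹ v)), mem_product.2
      ⟨mem_sdiff.2 ⟨mul_mem_mul har.1 hs, fun hmem => hv ?_⟩, hg⟩, heq⟩)
    exact mem_image.2 ⟨(a * g⁻¹, Φ g (Φ a⁻¹ v)), mem_product.2 ⟨hmem, hg⟩, heq⟩
  have hb : (vertexBoundary G VA).ncard ≤ R.card * ((A * S) \ A).card := by
    refine (Set.ncard_le_ncard hbd (Finset.finite_toSet _)).trans ?_
    rw [Set.ncard_coe_finset]
    exact card_image_le.trans (by rw [card_product, mul_comm])
  have h1 : h * (A.card : ℝ) * k ≤ (R.card : ℝ) * M * A.card := by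
    calc h * (A.card : ℝ) * k ≤ h * ((M * VA.card : ℕ) : ℝ) * k :=
          mul_le_mul_of_nonneg_right (mul_le_mul_of_nonneg_left (by exact_mod_cast hAV) hh.le)
            (Nat.cast_nonneg _)
      _ = (h * VA.card) * (M * k) := by push_cast; ring
      _ ≤ ((R.card * ((A * S) \ A).card : ℕ) : ℝ) * (M * k) :=
          mul_le_mul_of_nonneg_right ((he VA).trans (by exact_mod_cast hb)) (by positivity)
      _ = (R.card : ℝ) * M * ((k * ((A * S) \ A).card : ℕ) : ℝ) := by push_cast; ring
      _ ≤ (R.card : ℝ) * M * A.card :=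
          mul_le_mul_of_nonneg_left (by exact_mod_cast hA) (by positivity)
  have h2 : h * (k : ℝ) ≤ (R.card : ℝ) * M := by
    refine le_of_mul_le_mul_right ?_ (show (0 : ℝ) < A.card by exact_mod_cast hAne.card_pos)
    linarith [h1]
  rw [div_lt_iff₀ hh] at hk
  linarith [mul_comm h (k : ℝ)]

end Vale.Agent.P165.EX.Lin
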