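import Mathlib

/-!
# The place at infinity of a polynomial ring in one variable over a finite field

Laurent series over a finite field form a proper field, and finitely many polynomials have bounded
norm there, the variable going to the inverse of the series variable.
-/

namespace Vale.Agent.P165.EX.Lin

open HahnSeries WithZero
open scoped LaurentSeries Valued

variable (k : Type) [Field k]

/-- The series field. -/
abbrev LineField : Type := LaurentSeries k

noncomputable instance lineDiscrete :
    (Valued.v : Valuation (LineField k) ℤᵐ⁰).IsRankOneDiscrete := by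
  have : (Valued.v : Valuation (LineField k) ℤᵐ⁰).IsNontrivial := ⟨⟨single (-1 : ℤ) 1, ?_, ?_⟩⟩
  · exact Valuation.IsRankOneDiscrete.mk' _
  · rw [LaurentSeries.valuation_single_zpow]; exact exp_ne_zero
  · rw [LaurentSeries.valuation_single_zpow, ← exp_zero]
    exact fun h => by simpa using exp_injective h

noncomputable instance lineRankOne : (Valued.v : Valuation (LineField k) ℤᵐ⁰).RankOne :=
  Valuation.IsRankOneDiscrete.rankOne _ (one_lt_two : (1 : NNReal) < 2)

noncomputable instance lineNormed : NontriviallyNormedField (LineField k) :=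
  Valued.toNontriviallyNormedField (LineField k) ℤᵐ⁰

instance lineUltra : IsUltrametricDist (LineField k) := inferInstance

/-- The integers are the power series. -/
theorem exists_series (x : 𝒪[LineField k]) : ∃ F : PowerSeries k, (F : LineField k) = x :=
  (LaurentSeries.val_le_one_iff_eq_coe k (x : LineField k)).1 x.2

/-- Power series as integers. -/
noncomputable def seriesInt : PowerSeries k →+* 𝒪[LineField k] :=
  (HahnSeries.ofPowerSeries ℤ k).codRestrict _ fun F =>
    (LaurentSeries.val_le_one_iff_eq_coe k _).2 ⟨F, rfl⟩

theorem seriesInt_bijective : Function.Bijective (seriesInt k) :=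
  ⟨fun a b h => HahnSeries.ofPowerSeries_injective (congrArg Subtype.val h), fun x => by
    obtain ⟨F, hF⟩ := exists_series k x
    exact ⟨F, Subtype.ext hF⟩⟩

instance line_dvr : IsDiscreteValuationRing 𝒪[LineField k] :=
  IsDiscreteValuationRing.RingEquivClass.isDiscreteValuationRing (RingEquiv.ofBijective _ (seriesInt_bijective k))

instance line_residue [Finite k] : Finite 𝓀[LineField k] := by
  refine Finite.of_surjective (fun c : k => IsLocalRing.residue 𝒪[LineField k]
    (seriesInt k (PowerSeries.C c))) fun y => ?_
  obtain ⟨x, rfl⟩ := IsLocalRing.residue_surjective y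
  obtain ⟨F, rfl⟩ := (seriesInt_bijective k).2 x
  refine ⟨PowerSeries.constantCoeff F, ?_⟩
  dsimp only
  refine (Ideal.Quotient.eq).2 ?_
  rw [← map_sub, ← RingEquiv.coe_ofBijective (seriesInt k) (seriesInt_bijective k),
    IsLocalRing.mem_maximalIdeal, mem_nonunits_iff, isUnit_map_iff,
    PowerSeries.isUnit_iff_constantCoeff, map_sub, PowerSeries.constantCoeff_C, sub_self]
  exact not_isUnit_zero

instance lineProper [Finite k] : ProperSpace (LineField k) :=
  (Valued.integer.properSpace_iff_completeSpace_and_isDiscreteValuationRing_integer_and_finite_residueField).2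
    ⟨inferInstance, inferInstance, inferInstance⟩

variable {k}

/-- The embedding of the polynomials. -/
noncomputable def lineEmb : Polynomial k →+* LineField k :=
  Polynomial.eval₂RingHom HahnSeries.C (single (-1 : ℤ) 1)

theorem lineEmb_monomial (d : ℕ) (c : k) :
    lineEmb (Polynomial.monomial d c) = single (-(d : ℤ)) c := by
  rw [lineEmb, Polynomial.coe_eval₂RingHom, Polynomial.eval₂_monomial, HahnSeries.C_apply,
    single_pow, single_mul_single]
  simp

theorem lineEmb_coeff (r : Polynomial k) (N : ℕ) : (lineEmb r).coeff (-(N : ℤ)) = r.coeff N := by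
  induction r using Polynomial.induction_on' with
  | monomial d c =>
    rw [lineEmb_monomial, coeff_single, Polynomial.coeff_monomial]
    by_cases hd : d = N
    · simp [hd]
    · rw [if_neg (by omega), if_neg hd]
  | add a b ha hb => rw [map_add, coeff_add, Polynomial.coeff_add, ha, hb]

theorem lineEmb_injective : Function.Injective (lineEmb (k := k)) := fun a b h =>
  Polynomial.ext fun N => by rw [← lineEmb_coeff, ← lineEmb_coeff, h]

/-- Finitely many polynomials over a finite field in every ball. -/
theorem lineEmb_box [Finite k] (B : ℝ) : {r : Polynomial k | ‖lineEmb r‖ ≤ B}.Finite := by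
  have h1 : (1 : ℝ) < ‖(single (-1 : ℤ) (1 : k) : LineField k)‖ := by
    rw [Valued.toNormedField.one_lt_norm_iff, LaurentSeries.valuation_single_zpow, ← exp_zero]
    exact exp_lt_exp.2 (by norm_num)
  obtain ⟨N, hN⟩ := pow_unbounded_of_one_lt B h1
  have hdeg : ∀ r : Polynomial k, ‖lineEmb r‖ ≤ B → r.natDegree ≤ N := by
    intro r hr
    refine Polynomial.natDegree_le_iff_coeff_eq_zero.2 fun d hd => ?_
    have hle : ‖lineEmb r‖ ≤ ‖(single (-1 : ℤ) (1 : k) : LineField k) ^ N‖ := by
      rw [norm_pow]; exact hr.trans hN.le
    rw [Valued.toNormedField.norm_le_iff, map_pow, LaurentSeries.valuation_single_zpow,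
      ← exp_nsmul] at hle
    have hz := LaurentSeries.coeff_zero_of_lt_valuation (D := -(N : ℤ)) _ (by simpa using hle)
      (show -(d : ℤ) < -(N : ℤ) by omega)
    rwa [lineEmb_coeff] at hz
  refine Set.Finite.of_finite_image (f := fun r (d : Fin (N + 1)) => r.coeff (d : ℕ))
    (Set.toFinite _) fun a ha b hb e => Polynomial.ext fun d => ?_
  rcases lt_or_ge N d with hd | hd
  · rw [Polynomial.coeff_eq_zero_of_natDegree_lt ((hdeg a ha).trans_lt hd),
      Polynomial.coeff_eq_zero_of_natDegree_lt ((hdeg b hb).trans_lt hd)]
  · exact congrFun e ⟨d, Nat.lt_succ_of_le hd⟩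

end Vale.Agent.P165.EX.Lin
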