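import Mathlib

/-!
# Specialisations to algebraic numbers

A finitely generated algebra of numbers containing a transcendental element has a homomorphism to
the algebraic numbers which sends it to a number that is not an algebraic integer.
-/

namespace Vale.Agent.P165.EX.Lin

open Polynomial

variable {K : Type} [Field K] [CharZero K]

/-- A finitely generated algebra over a field has a point in a finite extension. -/
theorem exists_point (F R : Type) [Field F] [CommRing R] [Nontrivial R] [Algebra F R]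
    [Algebra.FiniteType F R] :
    ∃ (L : Type) (_ : Field L) (_ : Algebra F L) (_ : Module.Finite F L), Nonempty (R →ₐ[F] L) := by
  obtain ⟨M, hM⟩ := Ideal.exists_maximal R
  have : Algebra.FiniteType F (R ⧸ M) :=
    Algebra.FiniteType.of_surjective (Ideal.Quotient.mkₐ F M) Ideal.Quotient.mk_surjective
  letI := Ideal.Quotient.field M
  exact ⟨R ⧸ M, inferInstance, inferInstance, finite_of_finite_type_of_isJacobsonRing F _,
    ⟨Ideal.Quotient.mkₐ F M⟩⟩

/-- Some specialisation exists. -/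
theorem exists_spec_any (R : Type) [CommRing R] [Nontrivial R] [Algebra ℚ R]
    [Algebra.FiniteType ℚ R] : Nonempty (R →ₐ[ℚ] AlgebraicClosure ℚ) := by
  obtain ⟨L, _, _, _, ⟨ψ⟩⟩ := exists_point ℚ R
  exact ⟨(IsAlgClosed.lift : L →ₐ[ℚ] AlgebraicClosure ℚ).comp ψ⟩

/-- An algebraic field extension maps to the closure. -/
theorem exists_hom_closure (E : Type) [Field E] [Algebra ℚ E] [Algebra.IsIntegral ℚ E] :
    Nonempty (E →ₐ[ℚ] AlgebraicClosure ℚ) := ⟨IsAlgClosed.lift⟩

omit [CharZero K] in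
/-- Over a finite extension of the field of rational functions, finitely many elements and the
variable can be evaluated at the reciprocal of a prime. -/
theorem exists_spec_core {L : Type} [Field L] [Algebra ℚ[X] L] [FaithfulSMul ℚ[X] L]
    [Algebra.IsAlgebraic ℚ[X] L] (vals : Finset L) :
    ∃ (q : ℕ) (J : Subring L) (θ : J →+* AlgebraicClosure ℚ), q.Prime ∧
      (↑vals : Set L) ⊆ J ∧ (∀ p : ℚ[X], algebraMap ℚ[X] L p ∈ J) ∧
      ∀ hX : algebraMap ℚ[X] L X ∈ J,
        θ ⟨_, hX⟩ = algebraMap ℚ (AlgebraicClosure ℚ) (q : ℚ)⁻¹ := by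
  classical
  have hιK : Function.Injective (algebraMap ℚ[X] L) := FaithfulSMul.algebraMap_injective _ _
  have hmul : ∀ x : L, ∃ c : ℚ[X], c ≠ 0 ∧ IsIntegral ℚ[X] (c • x) := fun x =>
    IsAlgebraic.exists_integral_multiple (Algebra.IsAlgebraic.isAlgebraic x)
  choose c hc hcint using hmul
  let h : ℚ[X] := ∏ x ∈ vals, c x
  have hh : h ≠ 0 := Finset.prod_ne_zero_iff.2 fun x _ => hc _
  obtain ⟨q, hq, hqh⟩ : ∃ q : ℕ, q.Prime ∧ h.eval ((q : ℚ)⁻¹) ≠ 0 := by
    have hinj : Set.InjOn (fun q : ℕ => (q : ℚ)⁻¹) {q | q.Prime} := fun a _ b _ e =>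
      Nat.cast_injective (inv_injective e)
    have hinf : ((fun q : ℕ => (q : ℚ)⁻¹) '' {q | q.Prime}).Infinite :=
      (Nat.infinite_setOfPred_prime).image hinj
    obtain ⟨z, ⟨q, hq, rfl⟩, hz⟩ := hinf.exists_notMem_finset h.roots.toFinset
    exact ⟨q, hq, fun h0 => hz (by simp [mem_roots hh, h0])⟩
  let S₀ := Localization.Away h
  have hunit : IsUnit (algebraMap ℚ[X] L h) :=
    isUnit_iff_ne_zero.2 fun e => hh (hιK (e.trans (map_zero _).symm))
  letI : Algebra S₀ L := (IsLocalization.Away.lift h hunit : S₀ →+* L).toAlgebra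
  have : IsScalarTower ℚ[X] S₀ L :=
    IsScalarTower.of_algebraMap_eq fun p => (IsLocalization.Away.lift_eq h hunit p).symm
  let e : S₀ →+* ℚ := IsLocalization.Away.lift h
    (g := evalRingHom ((q : ℚ)⁻¹)) (isUnit_iff_ne_zero.2 hqh)
  have hesur : Function.Surjective e := fun r => ⟨algebraMap ℚ[X] S₀ (C r), by simp [e]⟩
  have hmax : (RingHom.ker e).IsMaximal := RingHom.ker_isMaximal_of_surjective e hesur
  have hinjS : Function.Injective (algebraMap S₀ L) := by
    rw [injective_iff_map_eq_zero]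
    intro z hz
    obtain ⟨p, y, rfl⟩ := IsLocalization.exists_mk'_eq (Submonoid.powers h) z
    have h1 := congrArg (algebraMap S₀ L) (IsLocalization.mk'_spec S₀ p y)
    rw [map_mul, hz, zero_mul, ← IsScalarTower.algebraMap_apply, eq_comm] at h1
    rw [show p = 0 from hιK (h1.trans (map_zero _).symm), IsLocalization.mk'_zero]
  let J := integralClosure S₀ L
  obtain ⟨P, hP, hPc⟩ := Ideal.exists_ideal_over_maximal_of_isIntegral (S := J) (RingHom.ker e)
    (fun z hz => by
      have : z = 0 := hinjS (by simpa using congrArg Subtype.val (RingHom.mem_ker.1 hz))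
      rw [this]; exact Submodule.zero_mem _)
  letI := Ideal.Quotient.field P
  let toP : S₀ →+* J ⧸ P := (Ideal.Quotient.mk P).comp (algebraMap S₀ J)
  have hker : ∀ z, e z = 0 → toP z = 0 := fun z hz => Ideal.Quotient.eq_zero_iff_mem.2 (by
    have : z ∈ P.comap (algebraMap S₀ J) := hPc ▸ RingHom.mem_ker.2 hz
    exact this)
  have hC : ∀ z, toP z = toP (algebraMap ℚ[X] S₀ (C (e z))) := fun z => by
    have := hker (z - algebraMap ℚ[X] S₀ (C (e z))) (by simp [e])
    rwa [map_sub, sub_eq_zero] at this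
  letI : Algebra ℚ (J ⧸ P) := (toP.comp ((algebraMap ℚ[X] S₀).comp C)).toAlgebra
  have : Algebra.IsIntegral ℚ (J ⧸ P) := by
    refine ⟨fun y => ?_⟩
    obtain ⟨j, rfl⟩ := Ideal.Quotient.mk_surjective y
    obtain ⟨p, hp, hpj⟩ := Algebra.IsIntegral.isIntegral (R := S₀) j
    refine ⟨p.map e, hp.map e, ?_⟩
    rw [Polynomial.eval₂_map]
    have hfun : (algebraMap ℚ (J ⧸ P)).comp e = toP := RingHom.ext fun z => (hC z).symm
    rw [hfun]
    change p.eval₂ ((Ideal.Quotient.mk P).comp (algebraMap S₀ J)) _ = 0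
    rw [← Polynomial.hom_eval₂, hpj, map_zero]
  obtain ⟨lift⟩ := exists_hom_closure (J ⧸ P)
  refine ⟨q, J.toSubring, lift.toRingHom.comp (Ideal.Quotient.mk P), hq, fun v hv => ?_,
    fun p => ?_, fun hX => ?_⟩
  · have h1 : IsIntegral S₀ (c v • v) := (hcint v).tower_top
    have hu : IsUnit (algebraMap ℚ[X] S₀ (c v)) :=
      isUnit_of_dvd_unit (map_dvd _ (Finset.dvd_prod_of_mem c hv))
        (IsLocalization.Away.algebraMap_isUnit (S := S₀) h)
    obtain ⟨u, hu⟩ := hu
    change IsIntegral S₀ v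
    rw [show v = algebraMap S₀ L (↑u⁻¹ : S₀) * (c v • v) by
      rw [Algebra.smul_def, ← mul_assoc, IsScalarTower.algebraMap_apply ℚ[X] S₀ L, ← map_mul,
        ← hu, Units.inv_mul, map_one, one_mul]]
    exact isIntegral_algebraMap.mul h1
  · rw [IsScalarTower.algebraMap_apply ℚ[X] S₀ L]
    exact J.algebraMap_mem _
  · rw [← lift.commutes]
    refine congrArg lift ?_
    change _ = toP (algebraMap ℚ[X] S₀ (C ((q : ℚ)⁻¹)))
    rw [show C ((q : ℚ)⁻¹) = C (e (algebraMap ℚ[X] S₀ X)) by simp [e], ← hC]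
    refine congrArg (Ideal.Quotient.mk P) (Subtype.ext ?_)
    exact IsScalarTower.algebraMap_apply ℚ[X] S₀ L X

/-- A transcendental element can be sent to a non-integral number. -/
theorem exists_spec_nonintegral (s : Finset K) {t : K} (ht : Transcendental ℚ t) (hts : t ∈ s) :
    ∃ θ : Algebra.adjoin ℚ (s : Set K) →ₐ[ℚ] AlgebraicClosure ℚ,
      ¬ IsIntegral ℤ (θ ⟨t, Algebra.subset_adjoin hts⟩) := by
  classical
  let F : IntermediateField ℚ K := IntermediateField.adjoin ℚ {t}
  let A : Subalgebra F K := Algebra.adjoin F (s : Set K)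
  have : Algebra.FiniteType F A := (Subalgebra.fg_iff_finiteType _).1 ⟨s, rfl⟩
  obtain ⟨L, _, _, _, ⟨π⟩⟩ := exists_point F A
  let tF : F := IntermediateField.AdjoinSimple.gen ℚ t
  have htF : Transcendental ℚ tF := fun h => ht (h.algHom F.val)
  let ι : ℚ[X] →ₐ[ℚ] F := aeval tF
  have hι : Function.Injective ι := transcendental_iff_injective.1 htF
  letI : Algebra ℚ[X] F := ι.toRingHom.toAlgebra
  letI : Algebra ℚ[X] L := ((algebraMap F L).comp ι.toRingHom).toAlgebra
  have : FaithfulSMul ℚ[X] L := (faithfulSMul_iff_algebraMap_injective _ _).2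
    ((algebraMap F L).injective.comp hι)
  have : IsScalarTower ℚ[X] F L := IsScalarTower.of_algebraMap_eq fun _ => rfl
  have : FaithfulSMul ℚ[X] F := (faithfulSMul_iff_algebraMap_injective _ _).2 hι
  have halgF : Algebra.IsAlgebraic ℚ[X] F := by
    refine ⟨fun x => ?_⟩
    obtain ⟨r, p, hp⟩ := IntermediateField.mem_adjoin_simple_iff ℚ (x : K) |>.1 x.2
    have hx : x = ι r / ι p := Subtype.ext (by
      rw [hp, IntermediateField.coe_div]
      congr 1 <;> exact Polynomial.aeval_algHom_apply F.val tF _)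
    rw [hx, div_eq_mul_inv]
    exact (isAlgebraic_algebraMap r).mul (IsAlgebraic.inv_iff.2 (isAlgebraic_algebraMap p))
  have : Algebra.IsAlgebraic ℚ[X] L := Algebra.IsAlgebraic.trans ℚ[X] F L
  obtain ⟨q, J, θ, hq, hJ, hpoly, hθ⟩ :=
    exists_spec_core (Finset.univ.image fun x : s => π ⟨x.1, Algebra.subset_adjoin x.2⟩)
  have hmem : ∀ x, x ∈ Algebra.adjoin ℚ (s : Set K) → ∃ hx : x ∈ A, π ⟨x, hx⟩ ∈ J := by
    intro x hx
    induction hx using Algebra.adjoin_induction with
    | mem x hx => exact ⟨Algebra.subset_adjoin hx,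
        hJ (Finset.mem_image.2 ⟨⟨x, hx⟩, Finset.mem_univ _, rfl⟩)⟩
    | algebraMap r =>
      refine ⟨A.algebraMap_mem (algebraMap ℚ F r), ?_⟩
      have : π ⟨algebraMap ℚ K r, A.algebraMap_mem (algebraMap ℚ F r)⟩ =
          algebraMap ℚ[X] L (C r) := by
        change π (algebraMap F A (algebraMap ℚ F r)) = algebraMap F L (ι (C r))
        rw [AlgHom.commutes, aeval_C]
      rw [this]
      exact hpoly _
    | add x y _ _ hx hy => exact ⟨add_mem hx.1 hy.1, by
        rw [show (⟨x + y, add_mem hx.1 hy.1⟩ : A) = ⟨x, hx.1⟩ + ⟨y, hy.1⟩ from rfl, map_add]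
        exact add_mem hx.2 hy.2⟩
    | mul x y _ _ hx hy => exact ⟨mul_mem hx.1 hy.1, by
        rw [show (⟨x * y, mul_mem hx.1 hy.1⟩ : A) = ⟨x, hx.1⟩ * ⟨y, hy.1⟩ from rfl, map_mul]
        exact mul_mem hx.2 hy.2⟩
  let toJ : Algebra.adjoin ℚ (s : Set K) →+* J :=
    { toFun := fun x => ⟨π ⟨x.1, (hmem x.1 x.2).1⟩, (hmem x.1 x.2).2⟩
      map_one' := Subtype.ext (map_one π)
      map_mul' := fun x y =>
        Subtype.ext (map_mul π ⟨x.1, (hmem x.1 x.2).1⟩ ⟨y.1, (hmem y.1 y.2).1⟩)
      map_zero' := Subtype.ext (map_zero π)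
      map_add' := fun x y =>
        Subtype.ext (map_add π ⟨x.1, (hmem x.1 x.2).1⟩ ⟨y.1, (hmem y.1 y.2).1⟩) }
  refine ⟨{ θ.comp toJ with commutes' := fun r => ?_ }, ?_⟩
  · exact RingHom.congr_fun (Subsingleton.elim ((θ.comp toJ).comp (algebraMap ℚ _)) (algebraMap ℚ _)) r
  · intro hint
    have hX : π ⟨t, Algebra.subset_adjoin hts⟩ = algebraMap ℚ[X] L X := by
      change _ = algebraMap F L (ι X)
      rw [← AlgHom.commutes π]
      refine congrArg π (Subtype.ext ?_)
      simp [ι, tF]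
    change IsIntegral ℤ (θ (toJ _)) at hint
    rw [show toJ ⟨t, Algebra.subset_adjoin hts⟩ = ⟨_, hpoly X⟩ from Subtype.ext hX, hθ] at hint
    replace hint := (isIntegral_algHom_iff
      ((algebraMap ℚ (AlgebraicClosure ℚ)).toIntAlgHom)
        (algebraMap ℚ (AlgebraicClosure ℚ)).injective).1 hint
    obtain ⟨z, hz⟩ := IsIntegrallyClosed.isIntegral_iff.1 hint
    have h1 : (z : ℚ) * q = 1 := by
      rw [show (z : ℚ) = (q : ℚ)⁻¹ from hz, inv_mul_cancel₀ (by exact_mod_cast hq.ne_zero)]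
    have h2 : z * (q : ℤ) = 1 := by exact_mod_cast h1
    have := Int.natAbs_mul z q
    rw [h2] at this
    exact hq.ne_one (Nat.eq_one_of_mul_eq_one_left this.symm)

end Vale.Agent.P165.EX.Lin
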