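import Vale.Agent.P165.EX.Lin.Solv
import Vale.Agent.P165.EX.Lin.Special
import Vale.Agent.P165.EX.Red.Strong

/-!
# A specialisation keeps an image away from virtual solvability
-/

namespace Vale.Agent.P165.EX.Lin

open Matrix Finset
open scoped MatrixGroups

variable {Γ : Type} [Group Γ]

/-- A finitely generated group has finitely many subgroups of bounded index. -/
theorem finite_subgroups [Group.FG Γ] (B : ℕ) :
    {L : Subgroup Γ | L.index ≠ 0 ∧ L.index ≤ B}.Finite := by
  classical
  obtain ⟨S, hS⟩ := ‹Group.FG Γ›.out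
  have hfin : ∀ b : Fin (B + 1), Finite (Γ →* Equiv.Perm (Fin b)) := fun b =>
    Finite.of_injective (fun f (x : S) => f x.1) fun f f' h =>
      MonoidHom.eq_of_eqOn_dense hS fun x hx => congrFun h ⟨x, hx⟩
  let φ : (Σ b : Fin (B + 1), (Γ →* Equiv.Perm (Fin b)) × Fin b) → Subgroup Γ :=
    fun d => (MulAction.stabilizer (Equiv.Perm (Fin d.1)) d.2.2).comap d.2.1
  refine (Set.finite_range φ).subset fun L hL => ?_
  have : L.FiniteIndex := ⟨hL.1⟩
  have : Fintype (Γ ⧸ L) := Subgroup.fintypeQuotientOfFiniteIndex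
  let e : Γ ⧸ L ≃ Fin L.index := Finite.equivFinOfCardEq rfl
  refine ⟨⟨⟨L.index, Nat.lt_succ_of_le hL.2⟩,
    (e.permCongrHom.toMonoidHom).comp (MulAction.toPermHom Γ (Γ ⧸ L)),
    e (QuotientGroup.mk 1)⟩, ?_⟩
  ext g
  simp [φ, MulAction.mem_stabilizer_iff, QuotientGroup.eq, Equiv.permCongrHom]

variable {K : Type} [Field K] {m : ℕ}

/-- Full span is the non-vanishing of a determinant of entries of finitely many elements. -/
theorem exists_det_ne_zero (ρ : Γ →* SL(m, K)) (L : Set Γ)
    (h : Submodule.span K ((fun g => (ρ g : Matrix (Fin m) (Fin m) K)) '' L) = ⊤) :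
    ∃ g : Fin m × Fin m → Γ, (∀ p, g p ∈ L) ∧
      (Matrix.of fun p e => (ρ (g p) : Matrix (Fin m) (Fin m) K) e.1 e.2).det ≠ 0 := by
  classical
  let vec : Matrix (Fin m) (Fin m) K ≃ₗ[K] (Fin m × Fin m → K) :=
    { toFun := fun A e => A e.1 e.2
      invFun := fun v => Matrix.of fun i j => v (i, j)
      map_add' := fun _ _ => rfl
      map_smul' := fun _ _ => rfl
      left_inv := fun _ => rfl
      right_inv := fun _ => rfl }
  obtain ⟨b, hb, hspan, hli⟩ := exists_linearIndependent K
    ((fun g => (ρ g : Matrix (Fin m) (Fin m) K)) '' L)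
  let B : Module.Basis b K (Matrix (Fin m) (Fin m) K) :=
    Module.Basis.mk hli (by rw [Subtype.range_coe, hspan, h])
  have : Fintype b := FiniteDimensional.fintypeBasisIndex B
  have hcard : Fintype.card (Fin m × Fin m) = Fintype.card b := by
    rw [← Module.finrank_eq_card_basis B, Module.finrank_matrix, Module.finrank_self,
      Fintype.card_prod, mul_one]
  let e := Fintype.equivOfCardEq hcard
  choose g hg hgb using fun p => hb (e p).2
  refine ⟨g, hg, ?_⟩
  have hrow : LinearIndependent K (fun p => vec (ρ (g p) : Matrix (Fin m) (Fin m) K)) := by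
    simp only [hgb]
    exact (hli.comp e e.injective).map' vec.toLinearMap vec.ker
  have := (Matrix.linearIndependent_rows_iff_isUnit
    (A := Matrix.of fun p e => (ρ (g p) : Matrix (Fin m) (Fin m) K) e.1 e.2)).1 hrow
  exact ((Matrix.isUnit_iff_isUnit_det _).1 this).ne_zero

/-- Conversely. -/
theorem span_eq_top_of_det (ρ : Γ →* SL(m, K)) (L : Set Γ) (g : Fin m × Fin m → Γ)
    (hg : ∀ p, g p ∈ L)
    (hdet : (Matrix.of fun p e => (ρ (g p) : Matrix (Fin m) (Fin m) K) e.1 e.2).det ≠ 0) :
    Submodule.span K ((fun g => (ρ g : Matrix (Fin m) (Fin m) K)) '' L) = ⊤ := by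
  classical
  let vec : Matrix (Fin m) (Fin m) K →ₗ[K] (Fin m × Fin m → K) :=
    { toFun := fun A e => A e.1 e.2
      map_add' := fun _ _ => rfl
      map_smul' := fun _ _ => rfl }
  have hrow := (Matrix.linearIndependent_rows_iff_isUnit
    (A := Matrix.of fun p e => (ρ (g p) : Matrix (Fin m) (Fin m) K) e.1 e.2)).2
      ((Matrix.isUnit_iff_isUnit_det _).2 (isUnit_iff_ne_zero.2 hdet))
  have hli : LinearIndependent K fun p => (ρ (g p) : Matrix (Fin m) (Fin m) K) :=
    LinearIndependent.of_comp vec hrow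
  refine eq_top_iff.2 ?_
  rw [← hli.span_eq_top_of_card_eq_finrank' (by
    rw [Module.finrank_matrix, Module.finrank_self, mul_one, Fintype.card_prod])]
  exact Submodule.span_mono (by rintro _ ⟨p, rfl⟩; exact ⟨g p, hg p, rfl⟩)

/-- Finitely many traces and full span give a finite image. -/
theorem finite_of_traces (ρ : Γ →* SL(m, K))
    (hs : Submodule.span K (Set.range fun g => (ρ g : Matrix (Fin m) (Fin m) K)) = ⊤)
    (hfin : (Set.range fun g => (ρ g : Matrix (Fin m) (Fin m) K).trace).Finite) :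
    (Set.range ρ).Finite := by
  classical
  obtain ⟨g, -, hdet⟩ := exists_det_ne_zero ρ Set.univ (by rwa [Set.image_univ])
  have htop := span_eq_top_of_det ρ (Set.range g) g (fun p => ⟨p, rfl⟩) hdet
  have hinj : ∀ x y : Γ, (∀ p, (ρ (x * g p) : Matrix (Fin m) (Fin m) K).trace =
      (ρ (y * g p) : Matrix (Fin m) (Fin m) K).trace) → ρ x = ρ y := by
    intro x y h
    refine Subtype.ext (Matrix.ext_iff_trace_mul_left.2 fun A => ?_)
    have hA : A ∈ Submodule.span K
        ((fun g => (ρ g : Matrix (Fin m) (Fin m) K)) '' Set.range g) := htop ▸ Submodule.mem_top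
    induction hA using Submodule.span_induction with
    | mem A hA =>
      obtain ⟨_, ⟨p, rfl⟩, rfl⟩ := hA
      rw [trace_mul_comm, trace_mul_comm (ρ (g p) : Matrix (Fin m) (Fin m) K)]
      simpa using h p
    | zero => simp
    | add a b _ _ ha hb => rw [add_mul, add_mul, trace_add, trace_add, ha, hb]
    | smul c a _ ha => rw [smul_mul_assoc, smul_mul_assoc, trace_smul, trace_smul, ha]
  let sig : Γ → Fin m × Fin m → K := fun x p => (ρ (x * g p) : Matrix (Fin m) (Fin m) K).trace
  have hsig : (Set.range sig).Finite := (Set.Finite.pi fun _ => hfin).subset (by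
    rintro _ ⟨x, rfl⟩ p _
    exact ⟨x * g p, rfl⟩)
  choose pre hpre using fun v : Set.range sig => v.2
  have := hsig.to_subtype
  refine (Set.finite_range fun v : Set.range sig => ρ (pre v)).subset ?_
  rintro _ ⟨x, rfl⟩
  exact ⟨⟨sig x, x, rfl⟩, hinj _ _ (congrFun (hpre ⟨sig x, x, rfl⟩))⟩

/-- The trace of an element of finite order is an algebraic integer. -/
theorem isIntegral_trace {E : Type} [Field E] [IsAlgClosed E] (A : Matrix (Fin m) (Fin m) E)
    {e : ℕ} (he : 0 < e) (hA : A ^ e = 1) : IsIntegral ℤ A.trace := by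
  rw [Matrix.trace_eq_sum_roots_charpoly]
  refine IsIntegral.multiset_sum fun z hz => ?_
  rw [Polynomial.mem_roots A.charpoly_monic.ne_zero, Matrix.mem_spectrum_iff_isRoot_charpoly.symm,
    ← Matrix.spectrum_toLin', ← Module.End.hasEigenvalue_iff_mem_spectrum] at hz
  obtain ⟨v, hv⟩ := hz.exists_hasEigenvector
  have h := hv.pow_apply e
  rw [← Matrix.toLin'_pow, hA, toLin'_one, LinearMap.id_apply] at h
  have h1 : z ^ e = 1 := by
    by_contra hne
    have h2 : (z ^ e - 1) • v = 0 := by rw [sub_smul, one_smul, ← h, sub_self]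
    exact hv.2 ((smul_eq_zero.1 h2).resolve_left (sub_ne_zero.2 hne))
  exact IsIntegral.of_pow he (by rw [h1]; exact isIntegral_one)

/-- Some specialisation to algebraic numbers of a strongly spanning representation with infinite
image has an image that is not virtually solvable. -/
theorem exists_specialisation [CharZero K] [Group.FG Γ] (hm : 2 ≤ m) (ρ : Γ →* SL(m, K))
    (hs : Red.StronglySpanning ρ) (hinf : (Set.range ρ).Infinite) :
    ∃ ρ' : Γ →* SL(m, AlgebraicClosure ℚ), NonSolv ρ' := by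
  classical
  obtain ⟨S, hS⟩ := ‹Group.FG Γ›.out
  set subs := (finite_subgroups (Γ := Γ) (bound m)).toFinset
  have hwit : ∀ L : subs, ∃ g : Fin m × Fin m → Γ, (∀ p, g p ∈ L.1) ∧
      (Matrix.of fun p e => (ρ (g p) : Matrix (Fin m) (Fin m) K) e.1 e.2).det ≠ 0 := fun L =>
    exists_det_ne_zero ρ _ (hs L.1 ⟨((Set.Finite.mem_toFinset _).1 L.2).1⟩)
  choose gL hgL hδ using hwit
  set δ := fun L : subs =>
    (Matrix.of fun p e => (ρ (gL L p) : Matrix (Fin m) (Fin m) K) e.1 e.2).det
  -- one trace which is transcendental, if there is one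
  obtain ⟨x₀, hx₀⟩ : ∃ x₀ : Γ, (∃ g, Transcendental ℚ (ρ g : Matrix (Fin m) (Fin m) K).trace) →
      Transcendental ℚ (ρ x₀ : Matrix (Fin m) (Fin m) K).trace := by
    by_cases h : ∃ g, Transcendental ℚ (ρ g : Matrix (Fin m) (Fin m) K).trace
    · exact ⟨h.choose, fun _ => h.choose_spec⟩
    · exact ⟨1, fun h' => absurd h' h⟩
  set t := (ρ x₀ : Matrix (Fin m) (Fin m) K).trace
  set s : Finset K := insert t ((S ×ˢ (univ : Finset (Fin m × Fin m))).image
    (fun u => (ρ u.1 : Matrix (Fin m) (Fin m) K) u.2.1 u.2.2) ∪ univ.image fun L => (δ L)⁻¹)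
  set R := Algebra.adjoin ℚ (s : Set K)
  have hts : t ∈ s := mem_insert_self _ _
  have hR : ∀ g i j, (ρ g : Matrix (Fin m) (Fin m) K) i j ∈ R := by
    intro g
    have hg : g ∈ Subgroup.closure (S : Set Γ) := hS ▸ Subgroup.mem_top g
    induction hg using Subgroup.closure_induction with
    | mem x hx => exact fun i j => Algebra.subset_adjoin (mem_insert_of_mem (mem_union_left _
        (mem_image.2 ⟨(x, i, j), mem_product.2 ⟨hx, mem_univ _⟩, rfl⟩)))
    | one =>
      intro i j
      rw [map_one, Matrix.SpecialLinearGroup.coe_one, Matrix.one_apply]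
      split_ifs <;> simp [R.one_mem, R.zero_mem]
    | mul x y _ _ hx hy =>
      intro i j
      rw [map_mul, Matrix.SpecialLinearGroup.coe_mul, Matrix.mul_apply]
      exact sum_mem fun l _ => mul_mem (hx i l) (hy l j)
    | inv x _ hx =>
      intro i j
      rw [map_inv, Matrix.SpecialLinearGroup.coe_inv]
      have e : (ρ x : Matrix (Fin m) (Fin m) K) =
          R.val.mapMatrix (Matrix.of fun i j => (⟨_, hx i j⟩ : R)) := rfl
      rw [e, ← AlgHom.map_adjugate]
      exact Subtype.coe_prop _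
  let ρR : Γ →* SL(m, R) :=
    { toFun := fun g => ⟨Matrix.of fun i j => ⟨_, hR g i j⟩, Subtype.ext (by
        change R.val _ = (1 : K)
        rw [AlgHom.map_det]
        exact (ρ g).2)⟩
      map_one' := Subtype.ext (Matrix.ext fun i j => Subtype.ext (by
        change (ρ 1 : Matrix (Fin m) (Fin m) K) i j = _
        rw [map_one, Matrix.SpecialLinearGroup.coe_one]
        simp [Matrix.one_apply, apply_ite]))
      map_mul' := fun a b => Subtype.ext (Matrix.ext fun i j => Subtype.ext (by
        change (ρ (a * b) : Matrix (Fin m) (Fin m) K) i j = _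
        rw [map_mul, Matrix.SpecialLinearGroup.coe_mul]
        change _ = R.val (∑ l, (⟨_, hR a i l⟩ : R) * ⟨_, hR b l j⟩)
        rw [map_sum]
        rfl)) }
  have htr : ∀ g, ((ρR g : Matrix (Fin m) (Fin m) R).trace : K) =
      (ρ g : Matrix (Fin m) (Fin m) K).trace := fun g => by
    change R.val (∑ i, (⟨_, hR g i i⟩ : R)) = ∑ i, _
    rw [map_sum]
    rfl
  -- specialise
  have : Algebra.FiniteType ℚ R := (Subalgebra.fg_iff_finiteType _).1 ⟨s, rfl⟩
  suffices key : ∃ θ : R →ₐ[ℚ] AlgebraicClosure ℚ,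
      (Set.range ((SpecialLinearGroup.map θ.toRingHom).comp ρR)).Infinite by
    obtain ⟨θ, hθ⟩ := key
    refine ⟨_, nonSolv_of_spanning _ hm (fun L hL hidx => ?_) hθ⟩
    have hmem : L ∈ subs := (Set.Finite.mem_toFinset _).2 ⟨hL.index_ne_zero, hidx⟩
    refine span_eq_top_of_det _ _ (gL ⟨L, hmem⟩) (hgL ⟨L, hmem⟩) ?_
    set M : Matrix (Fin m × Fin m) (Fin m × Fin m) R :=
      Matrix.of fun p e => (ρR (gL ⟨L, hmem⟩ p) : Matrix (Fin m) (Fin m) R) e.1 e.2
    have hM : (M.det : K) = δ ⟨L, hmem⟩ := by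
      change R.val _ = _
      rw [AlgHom.map_det]
      rfl
    let i : R := ⟨(δ ⟨L, hmem⟩)⁻¹, Algebra.subset_adjoin (mem_insert_of_mem (mem_union_right _
      (mem_image.2 ⟨⟨L, hmem⟩, mem_univ _, rfl⟩)))⟩
    have hone : θ M.det * θ i = 1 := by
      rw [← map_mul, show M.det * i = 1 from Subtype.ext (by
        change (M.det : K) * (δ ⟨L, hmem⟩)⁻¹ = 1
        rw [hM]
        exact mul_inv_cancel₀ (hδ ⟨L, hmem⟩)), map_one]
    have : θ M.det ≠ 0 := fun h => by rw [h, zero_mul] at hone; exact zero_ne_one hone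
    rw [AlgHom.map_det] at this
    exact this
  by_cases hT : ∃ g, Transcendental ℚ (ρ g : Matrix (Fin m) (Fin m) K).trace
  · obtain ⟨θ, hθ⟩ := exists_spec_nonintegral s (hx₀ hT) hts
    refine ⟨θ, fun hfin => hθ ?_⟩
    have := hfin.to_subtype
    obtain ⟨a, b, hab, he⟩ := Finite.exists_ne_map_eq_of_infinite
      (fun a : ℕ => (⟨((SpecialLinearGroup.map θ.toRingHom).comp ρR) (x₀ ^ a), _, rfl⟩ :
        Set.range ((SpecialLinearGroup.map θ.toRingHom).comp ρR)))
    set A := ((SpecialLinearGroup.map θ.toRingHom).comp ρR) x₀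
    have he' : A ^ a = A ^ b := by simpa [A, ← map_pow] using congrArg Subtype.val he
    obtain ⟨e, he0, he1⟩ : ∃ e, 0 < e ∧ A ^ e = 1 :=
      isOfFinOrder_iff_pow_eq_one.1 (by
        by_contra hinfo
        exact hab (injective_pow_iff_not_isOfFinOrder.2 hinfo he'))
    have h := isIntegral_trace (A : Matrix (Fin m) (Fin m) (AlgebraicClosure ℚ)) he0 (by
      rw [← Matrix.SpecialLinearGroup.coe_pow, he1, Matrix.SpecialLinearGroup.coe_one])
    have e1 : (⟨t, Algebra.subset_adjoin hts⟩ : R) = (ρR x₀ : Matrix (Fin m) (Fin m) R).trace :=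
      Subtype.ext (htr x₀).symm
    rw [e1]
    convert h using 1
    · exact Subsingleton.elim _ _
    · exact map_sum θ _ _
  · obtain ⟨θ⟩ := exists_spec_any R
    refine ⟨θ, fun hfin => hinf (finite_of_traces ρ ?_ ?_)⟩
    · rw [← hs ⊤ inferInstance, Subgroup.coe_top, Set.image_univ]
    have hT' : ∀ g, IsAlgebraic ℚ (ρ g : Matrix (Fin m) (Fin m) K).trace := fun g => by
      by_contra h
      exact hT ⟨g, h⟩
    have hinjθ : ∀ g h, θ (ρR g : Matrix (Fin m) (Fin m) R).trace =
        θ (ρR h : Matrix (Fin m) (Fin m) R).trace →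
        (ρR g : Matrix (Fin m) (Fin m) R).trace = (ρR h : Matrix (Fin m) (Fin m) R).trace := by
      intro g h e
      by_contra hne
      set c := (ρR g : Matrix (Fin m) (Fin m) R).trace - (ρR h : Matrix (Fin m) (Fin m) R).trace
      have hc : (c : K) ≠ 0 := fun h0 => hne (sub_eq_zero.1 (Subtype.ext h0))
      have halg : IsAlgebraic ℚ (c : K) := by
        change IsAlgebraic ℚ (((ρR g : Matrix (Fin m) (Fin m) R).trace : K) -
          ((ρR h : Matrix (Fin m) (Fin m) R).trace : K))
        rw [htr, htr]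
        exact (hT' g).sub (hT' h)
      have hinv : (c : K)⁻¹ ∈ R := R.inv_mem_of_algebraic halg
      have h1 : θ c * θ ⟨_, hinv⟩ = 1 := by
        rw [← map_mul, show c * ⟨_, hinv⟩ = (1 : R) from Subtype.ext (mul_inv_cancel₀ hc), map_one]
      rw [map_sub, e, sub_self, zero_mul] at h1
      exact zero_ne_one h1
    set tr' := fun g => θ (ρR g : Matrix (Fin m) (Fin m) R).trace
    have hfin' : (Set.range tr').Finite := by
      refine (hfin.image fun A : SL(m, AlgebraicClosure ℚ) => (A : Matrix (Fin m) (Fin m) (AlgebraicClosure ℚ)).trace).subset ?_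
      rintro _ ⟨g, rfl⟩
      exact ⟨_, ⟨g, rfl⟩, by simp [tr', Matrix.trace]⟩
    have := hfin'.to_subtype
    choose pre hpre using fun v : Set.range tr' => v.2
    refine (Set.finite_range fun v : Set.range tr' =>
      ((ρR (pre v) : Matrix (Fin m) (Fin m) R).trace : K)).subset ?_
    rintro _ ⟨g, rfl⟩
    refine ⟨⟨tr' g, g, rfl⟩, ?_⟩
    exact (congrArg Subtype.val (hinjθ _ _ (hpre ⟨tr' g, g, rfl⟩))).trans (htr g)

end Vale.Agent.P165.EX.Lin
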