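import Vale.Agent.P165.EX.Lin.Places
import Vale.Agent.P165.EX.Lin.Constituent
import Vale.Agent.P165.EX.Lin.Specialise
import Vale.Agent.P165.EX.Red.Main
import Vale.Agent.P165.GL2.Linear

/-!
# Linear images that are not virtually solvable

Given the phase for arbitrary kernels, every group with a linear representation in characteristic
zero whose image is not virtually solvable has a nonuniqueness phase.
-/

namespace Vale.Agent.P165.EX.Lin

open Matrix
open scoped MatrixGroups

theorem dser_subtype {G : Type} [Group G] (H : Subgroup G) : ∀ j,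
    dser H j = (derivedSeries H j).map H.subtype
  | 0 => by rw [derivedSeries_zero, ← MonoidHom.range_eq_map, Subgroup.range_subtype]; rfl
  | j + 1 => by
    rw [derivedSeries_succ, Subgroup.map_commutator, ← dser_subtype H j]
    rfl

/-- An image with no solvable subgroup of finite index. -/
theorem nonSolv_of_range {Γ G : Type} [Group Γ] [Group G] (f : Γ →* G)
    (h : ∀ H : Subgroup f.range, H.FiniteIndex → ¬ Group.IsSolvable H) : NonSolv f := by
  intro L hL j
  by_contra hno
  push Not at hno
  let H := L.map f.rangeRestrict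
  have hH : H.FiniteIndex := ⟨fun h0 => hL.index_ne_zero <| Nat.eq_zero_of_zero_dvd
    (h0 ▸ L.index_map_dvd f.rangeRestrict_surjective)⟩
  refine h H hH ((Group.isSolvable_def _).2 ⟨j, ?_⟩)
  have h1 : dser H j = ⊥ := by
    rw [dser_map, eq_bot_iff]
    rintro _ ⟨g, hg, rfl⟩
    exact Subgroup.mem_bot.2 (Subtype.ext (hno g hg))
  rw [dser_subtype, Subgroup.map_eq_bot_iff, Subgroup.ker_subtype] at h1
  exact le_bot_iff.1 h1

/-- A phase passes up injective homomorphisms with image of finite index. -/
theorem phaseQT_of_inj {Γ L : Type} [Group Γ] [Group L] (ι : L →* Γ) (hι : Function.Injective ι)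
    (hfin : ι.range.FiniteIndex) (h : PhaseQT L) : PhaseQT Γ :=
  Red.phaseQT_of_finiteIndex ι.range (Red.phaseQT_of_equiv (MonoidHom.ofInjective hι) h)

/-- A finitely generated group with a representation whose image is not virtually solvable. -/
theorem phaseQT_nonSolv (hker : PhaseKernel) {K : Type} [Field K] [CharZero K] {Γ : Type}
    [Group Γ] [Group.FG Γ] {n : ℕ} (rep : Γ →* Matrix (Fin n) (Fin n) K) (h : NonSolv rep) :
    PhaseQT Γ := by
  let f := algebraMap K (AlgebraicClosure K)
  let rep' : Γ →* Matrix (Fin n) (Fin n) (AlgebraicClosure K) :=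
    (f.mapMatrix : Matrix (Fin n) (Fin n) K →+* _).toMonoidHom.comp rep
  have h' : NonSolv rep' := fun L hL j => by
    obtain ⟨g, hg, hne⟩ := h L hL j
    refine ⟨g, hg, fun e => hne ((Matrix.map_injective f.injective) ?_)⟩
    exact e.trans (Matrix.map_one _ (map_zero f) (map_one f)).symm
  obtain ⟨L, _, _, ι, hι, hfin, m, hm, σ, hs, hns⟩ := exists_constituent n Γ rep' h'
  refine phaseQT_of_inj ι hι hfin ?_
  obtain ⟨ρ', hρ'⟩ := exists_specialisation hm σ hs (infinite_of_nonSolv hns)
  let r : L →* Matrix (Fin m) (Fin m) (AlgebraicClosure ℚ) :=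
    { toFun := fun g => (ρ' g : Matrix (Fin m) (Fin m) (AlgebraicClosure ℚ))
      map_one' := by simp
      map_mul' := fun a b => by simp }
  have hr : NonSolv r := fun M hM j => by
    obtain ⟨g, hg, hne⟩ := hρ' M hM j
    exact ⟨g, hg, fun e => hne (Subtype.ext (e.trans (by simp)))⟩
  obtain ⟨L', _, _, ι', hι', hfin', m', hm', σ', hs', -⟩ := exists_constituent m L r hr
  have : Algebra.IsAlgebraic ℚ (AlgebraicClosure ℚ) := by
    convert AlgebraicClosure.isAlgebraic ℚ using 1
    · rfl
    · exact Subsingleton.elim _ _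
  exact phaseQT_of_inj ι' hι' hfin' (phaseQT_strong_image hker hm' σ' hs')

/-- Every group with a linear image in characteristic zero which is not virtually solvable has a
nonuniqueness phase, given the phase for arbitrary kernels. -/
theorem phaseQT_linear (hker : PhaseKernel) {K : Type} [Field K] [CharZero K] {Γ : Type}
    [Group Γ] {n : ℕ} (φ : Γ →* GL (Fin n) K)
    (h : ∀ H : Subgroup φ.range, H.FiniteIndex → ¬ Group.IsSolvable H) : PhaseQT Γ := by
  refine phaseQT_of_nonuniquePhase (GL2.nonuniquePhase_of_fg fun hfg => ?_)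
  refine nonuniquePhase_of_phaseQT (phaseQT_nonSolv hker ((Units.coeHom _).comp φ) fun L hL j => ?_)
  obtain ⟨g, hg, hne⟩ := nonSolv_of_range φ h L hL j
  exact ⟨g, hg, fun e => hne (Units.ext e)⟩

end Vale.Agent.P165.EX.Lin
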