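import Vale.Agent.P165.EX.Lin.PlacesP
import Vale.Agent.P165.EX.Red.Strong
import Vale.Agent.P165.EX.Join.Kernel

/-!
# Strongly spanning images in positive characteristic
-/

namespace Vale.Agent.P165.EX.Lin

open Matrix
open scoped MatrixGroups

/-- Full span and prime closure over a proper field give a semisimple image. -/
def SpanSemisimple : Prop :=
  ∀ (k : Type) [NontriviallyNormedField k] [ProperSpace k] (n : ℕ), 2 ≤ n →
    ∀ (Δ : Type) [Group Δ] (σ : Δ →* SL(n, k)),
      Semi.Spanning σ → Semi.PrimeClosure σ → SemisimpleImage σ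

/-- With a phase for arbitrary kernels: a finitely generated group with an infinite strongly
spanning image over a field of transcendence degree at most one over a prime field of positive
characteristic has a phase. -/
theorem phaseQT_strong_imageP (hker : PhaseKernel) (hsemi : SpanSemisimple) {K : Type} [Field K]
    (p : ℕ) [Fact p.Prime] [Algebra (ZMod p) K]
    (htr : ∀ f : Fin 2 → K, ¬ AlgebraicIndependent (ZMod p) f) {n : ℕ} (hn : 2 ≤ n) {Γ : Type}
    [Group Γ] [Group.FG Γ] (ρ : Γ →* SL(n, K)) (hs : Red.StronglySpanning ρ)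
    (hinf : (Set.range ρ).Infinite) : PhaseQT Γ := by
  classical
  obtain ⟨H, hH, hp⟩ := Red.exists_primeClosure ρ
  refine Red.phaseQT_of_finiteIndex H (phaseQT_of_nonuniquePhase ?_)
  set τ := ρ.comp H.subtype
  have : Group.FG τ.range := Group.fg_range τ
  have : Infinite τ.range := by
    refine not_finite_iff_infinite.1 fun hfin => hinf ?_
    have : Fintype (Γ ⧸ H) := Subgroup.fintypeQuotientOfFiniteIndex
    have hτ : (Set.range τ).Finite := by
      rw [← MonoidHom.coe_range]; exact Set.toFinite _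
    refine ((Set.finite_range fun q : Γ ⧸ H => ρ q.out).mul hτ).subset ?_
    rintro _ ⟨g, rfl⟩
    refine ⟨_, ⟨QuotientGroup.mk g, rfl⟩, _,
      ⟨⟨(QuotientGroup.mk g : Γ ⧸ H).out⁻¹ * g, QuotientGroup.eq.1 (Quotient.out_eq _)⟩, rfl⟩, ?_⟩
    simp [τ]
  have hsΔ : Semi.Spanning τ.range.subtype := by
    rw [Semi.Spanning, ← Red.spanning_restrict hs H]
    refine congrArg (Submodule.span K) (Set.ext fun A => ⟨?_, ?_⟩)
    · rintro ⟨⟨_, g, rfl⟩, rfl⟩
      exact ⟨g, rfl⟩
    · rintro ⟨g, rfl⟩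
      exact ⟨⟨_, g, rfl⟩, rfl⟩
  have hpΔ : Semi.PrimeClosure τ.range.subtype := fun f₁ f₂ h =>
    (hp f₁ f₂ fun g => h ⟨_, g, rfl⟩).imp
      (fun h => by rintro ⟨_, g, rfl⟩; exact h g) fun h => by rintro ⟨_, g, rfl⟩; exact h g
  obtain ⟨P, _, _, k, _, hproper, σ, hσs, hσp, hfin⟩ :=
    exists_places_charP p htr τ.range.subtype τ.range.subtype_injective hsΔ hpΔ
  refine hker P k (fun _ => n) H (fun v => (σ v).comp τ.rangeRestrict) (fun R => ?_)
    (Or.inr fun v => ⟨hproper v, hsemi (k v) n hn H _ ?_ fun f₁ f₂ hf => ?_⟩)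
  · refine ((hfin R).image fun x v => σ v x).subset ?_
    rintro _ ⟨g, hg, rfl⟩
    exact ⟨τ.rangeRestrict g, hg, rfl⟩
  · rw [Semi.Spanning, ← hσs v]
    refine congrArg (Submodule.span (k v)) (Set.ext fun A => ⟨?_, ?_⟩)
    · rintro ⟨g, rfl⟩
      exact ⟨τ.rangeRestrict g, rfl⟩
    · rintro ⟨x, rfl⟩
      obtain ⟨g, rfl⟩ := τ.rangeRestrict_surjective x
      exact ⟨g, rfl⟩
  · refine (hσp v f₁ f₂ fun x => ?_).imp (fun h g => h _) fun h g => h _
    obtain ⟨g, rfl⟩ := τ.rangeRestrict_surjective x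
    exact hf g

/-- The algebraic closure of a field of transcendence degree at most one is one. -/
theorem trdeg_closure {K : Type} [Field K] (p : ℕ) [Fact p.Prime] [Algebra (ZMod p) K]
    (htr : ∀ f : Fin 2 → K, ¬ AlgebraicIndependent (ZMod p) f)
    (f : Fin 2 → AlgebraicClosure K) : ¬ AlgebraicIndependent (ZMod p) f := by
  intro hf
  have h1 : ((2 : ℕ) : Cardinal) ≤ Algebra.trdeg (ZMod p) (AlgebraicClosure K) := by
    simpa using hf.cardinalMk_le_trdeg
  rw [← trdeg_add_eq (R := ZMod p) (S := K) (A := AlgebraicClosure K),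
    trdeg_eq_zero (R := K) (A := AlgebraicClosure K), add_zero] at h1
  obtain ⟨s, hs⟩ := exists_isTranscendenceBasis (ZMod p) K
  rw [← hs.cardinalMk_eq_trdeg] at h1
  have : 2 ≤ Cardinal.mk s := by simpa using h1
  obtain ⟨e⟩ : Nonempty (Fin 2 ↪ s) := by
    rw [← Cardinal.le_def, Cardinal.mk_fin]; exact this
  exact htr _ (hs.1.comp e e.injective)

end Vale.Agent.P165.EX.Lin
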