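import Vale.Agent.P165.EX.Lin.Amenable
import Vale.Agent.P165.EX.Lin.PhaseP

/-!
# Linear images over every field

Given the phase for arbitrary kernels, semisimple images over proper fields from full span and prime
closure, and specialisation in positive characteristic, the linear clauses hold over every field.
-/

namespace Vale.Agent.P165.EX.Lin

open Matrix
open scoped MatrixGroups

/-- A strongly spanning infinite image in positive characteristic specialises to a field of
transcendence degree at most one over the prime field without becoming virtually solvable. -/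
def SpecialiseP : Prop :=
  ∀ (K : Type) [Field K] [IsAlgClosed K], ringChar K ≠ 0 → ∀ (Γ : Type) [Group Γ] [Group.FG Γ]
    (m : ℕ), 2 ≤ m → ∀ ρ : Γ →* SL(m, K), Red.StronglySpanning ρ → (Set.range ρ).Infinite →
      ∃ (p : ℕ) (_ : Fact p.Prime) (L : Type) (_ : Field L) (_ : Algebra (ZMod p) L),
        (∀ f : Fin 2 → L, ¬ AlgebraicIndependent (ZMod p) f) ∧ ∃ ρ' : Γ →* SL(m, L), NonSolv ρ'

/-- A finitely generated group with a representation over any field whose image is not virtually
solvable. -/
theorem phaseQT_nonSolv_any (hker : PhaseKernel) (hsemi : SpanSemisimple) (hspec : SpecialiseP)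
    {K : Type} [Field K] {Γ : Type} [Group Γ] [Group.FG Γ] {n : ℕ}
    (rep : Γ →* Matrix (Fin n) (Fin n) K) (h : NonSolv rep) : PhaseQT Γ := by
  rcases eq_or_ne (ringChar K) 0 with h0 | hp
  · have : CharP K 0 := h0 ▸ ringChar.charP K
    have : CharZero K := CharP.charP_to_charZero K
    exact phaseQT_nonSolv hker rep h
  let f := algebraMap K (AlgebraicClosure K)
  let rep' : Γ →* Matrix (Fin n) (Fin n) (AlgebraicClosure K) :=
    (f.mapMatrix : Matrix (Fin n) (Fin n) K →+* _).toMonoidHom.comp rep
  have h' : NonSolv rep' := fun L hL j => by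
    obtain ⟨g, hg, hne⟩ := h L hL j
    refine ⟨g, hg, fun e => hne ((Matrix.map_injective f.injective) ?_)⟩
    exact e.trans (Matrix.map_one _ (map_zero f) (map_one f)).symm
  have hp' : ringChar (AlgebraicClosure K) ≠ 0 := by
    have : CharP (AlgebraicClosure K) (ringChar K) :=
      charP_of_injective_algebraMap f.injective (ringChar K)
    rwa [ringChar.eq (AlgebraicClosure K) (ringChar K)]
  obtain ⟨L, _, _, ι, hι, hfin, m, hm, σ, hs, hns⟩ := exists_constituent n Γ rep' h'
  refine phaseQT_of_inj ι hι hfin ?_
  obtain ⟨p, _, F, _, _, htr, ρ', hρ'⟩ :=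
    hspec (AlgebraicClosure K) hp' L m hm σ hs (infinite_of_nonSolv hns)
  let g := algebraMap F (AlgebraicClosure F)
  let r : L →* Matrix (Fin m) (Fin m) (AlgebraicClosure F) :=
    { toFun := fun x => (ρ' x : Matrix (Fin m) (Fin m) F).map g
      map_one' := by simp
      map_mul' := fun a b => by simp [Matrix.map_mul] }
  have hr : NonSolv r := fun M hM j => by
    obtain ⟨x, hx, hne⟩ := hρ' M hM j
    refine ⟨x, hx, fun e => hne (Subtype.ext ((Matrix.map_injective g.injective) ?_))⟩
    exact e.trans (by simp)
  obtain ⟨L', _, _, ι', hι', hfin', m', hm', σ', hs', hns'⟩ := exists_constituent m L r hr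
  exact phaseQT_of_inj ι' hι' hfin' (phaseQT_strong_imageP hker hsemi p (trdeg_closure p htr) hm'
    σ' hs' (infinite_of_nonSolv hns'))

/-- Every group with a linear image over any field which is not virtually solvable. -/
theorem phaseQT_linear_any (hker : PhaseKernel) (hsemi : SpanSemisimple) (hspec : SpecialiseP)
    {K : Type} [Field K] {Γ : Type} [Group Γ] {n : ℕ} (φ : Γ →* GL (Fin n) K)
    (h : ∀ H : Subgroup φ.range, H.FiniteIndex → ¬ Group.IsSolvable H) : PhaseQT Γ := by
  refine phaseQT_of_nonuniquePhase (GL2.nonuniquePhase_of_fg fun hfg => ?_)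
  refine nonuniquePhase_of_phaseQT
    (phaseQT_nonSolv_any hker hsemi hspec ((Units.coeHom _).comp φ) fun L hL j => ?_)
  obtain ⟨g, hg, hne⟩ := nonSolv_of_range φ h L hL j
  exact ⟨g, hg, fun e => hne (Units.ext e)⟩

/-- Expanding graphs with a symmetry group that is amenable by linear over any field. -/
theorem phase_of_expands_any (hker : PhaseKernel) (hsemi : SpanSemisimple) (hspec : SpecialiseP)
    {K : Type} [Field K] {Γ : Type} [Group Γ] {n : ℕ} (φ : Γ →* GL (Fin n) K) (hN : Fol φ.ker)
    {V : Type} (G : SimpleGraph V) (hc : G.Connected) (hf : ∀ v, (G.neighborSet v).Finite)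
    (Φ : Γ →* (G ≃g G)) (hstab : ∀ v, {g | Φ g v = v}.Finite)
    (hkerfree : ∀ g v, Φ g v = v → φ g = 1 → g = 1) (R : Finset V)
    (cover : ∀ v, ∃ g, Φ g v ∈ R) {h : ℝ} (hh : 0 < h) (he : Expands G h) : pc G < pu G :=
  phase_of_expands_of_linear (fun _ _ _ ψ hψ => phaseQT_linear_any hker hsemi hspec ψ hψ) φ hN G
    hc hf Φ hstab hkerfree R cover hh he

end Vale.Agent.P165.EX.Lin
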