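import Vale.Agent.P165.EX.Red.Absolute
import Vale.Agent.P165.EX.Red.Family
import Vale.Agent.P165.EX.Join.Kernel

/-!
# Places of a finitely generated group of matrices over algebraic numbers, whatever the kernel
-/

namespace Vale.Agent.P165.EX.Lin

open Matrix Multi
open scoped Matrix.Norms.Elementwise MatrixGroups

variable {K : Type} [Field K] [CharZero K] [Algebra.IsAlgebraic ℚ K]

/-- An injective representation with full span and prime closure has proper places of semisimple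
image with finite boxes. -/
theorem exists_places_image {n : ℕ} (hn : 2 ≤ n) {Δ : Type} [Group Δ] [Group.FG Δ]
    (ρ : Δ →* SL(n, K)) (hinj : Function.Injective ρ) (hs : Semi.Spanning ρ)
    (hp : Semi.PrimeClosure ρ) :
    ∃ (P : Type) (_ : Fintype P) (_ : Nonempty P) (k : P → Type)
      (_ : ∀ v, NontriviallyNormedField (k v)) (_ : ∀ v, ProperSpace (k v))
      (σ : ∀ v, Δ →* SL(n, k v)), (∀ v, SemisimpleImage (σ v)) ∧ FiniteBoxes σ := by
  classical
  obtain ⟨m, hm0, K₀, hK₀, hA⟩ := Fg.exists_integral ρ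
  obtain ⟨ρ₀, hρ₀, -⟩ := Fg.exists_descend (K₀ := K₀) (algebraMap K₀ K) ρ
    fun g i j => ⟨⟨_, (hA g i j).1⟩, rfl⟩
  let P : Type := Σ v : Option {q : ℕ // q ∈ m.primeFactors}, (K₀ →ₐ[ℚ] Fg.RatPlace m v)
  have : Fintype P := inferInstance
  have hne : Nonempty P := ⟨⟨none, IsAlgClosed.lift⟩⟩
  choose k hk hkp φ hφ using fun v : P => Fg.exists_proper m v.1 v.2
  have hmap : ∀ g, (ρ g : Matrix (Fin n) (Fin n) K) =
      (ρ₀ g : Matrix (Fin n) (Fin n) K₀).map (algebraMap K₀ K) :=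
    fun g => Matrix.ext fun i j => (hρ₀ g i j).symm
  refine ⟨P, inferInstance, hne, k, hk, hkp, fun v => (SpecialLinearGroup.map (φ v)).comp ρ₀,
    fun v => ?_, fun R => ?_⟩
  · exact Red.semisimpleImage_of_spanning hn _
      (Semi.spanning_map (φ v) ρ₀ _ (fun _ => rfl) (Semi.spanning_comap _ ρ₀ ρ hmap hs))
      (Semi.prime_map (φ v) ρ₀ _ (fun _ => rfl) (Semi.prime_comap _ ρ₀ ρ hmap hp))
  have hbox := Fg.finite_integral_box (R := invRing m) (F := ℚ) (K := K₀) (Fg.RatPlace m)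
    (Fg.invRing_box m) R
  set D : Finset K₀ := hbox.toFinset
  have hmat : {M : Matrix (Fin n) (Fin n) K₀ | ∀ i j, M i j ∈ D}.Finite :=
    ((Fintype.piFinset fun _ : Fin n => Fintype.piFinset fun _ : Fin n => D).finite_toSet).subset
      fun M hM => by simpa [Fintype.mem_piFinset] using! hM
  refine (hmat.preimage (f := fun g => (ρ₀ g : Matrix (Fin n) (Fin n) K₀))
    (fun a _ b _ e => hinj (Subtype.ext (by rw [hmap a, hmap b]; exact congrArg (fun M : Matrix (Fin n) (Fin n) K₀ => M.map (algebraMap K₀ K)) e)))).subset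
    fun g hg i j => hbox.mem_toFinset.2 ⟨?_, fun v σ => ?_⟩
  · refine (isIntegral_algHom_iff (IsScalarTower.toAlgHom (invRing m) K₀ K)
      (algebraMap K₀ K).injective).1 ?_
    change IsIntegral (invRing m) (algebraMap K₀ K ((ρ₀ g : Matrix (Fin n) (Fin n) K₀) i j))
    rw [hρ₀ g i j]
    exact (hA g i j).2
  · rw [← hφ ⟨v, σ⟩]
    exact hg ⟨v, σ⟩ i j

/-- With a phase for arbitrary kernels: a finitely generated group with a strongly spanning
representation over algebraic numbers has a phase, whatever the kernel. -/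
theorem phaseQT_strong_image (hker : PhaseKernel) {n : ℕ} (hn : 2 ≤ n) {Γ : Type} [Group Γ]
    [Group.FG Γ] (ρ : Γ →* SL(n, K)) (hs : Red.StronglySpanning ρ) : PhaseQT Γ := by
  classical
  obtain ⟨H, hH, hp⟩ := Red.exists_primeClosure ρ
  refine Red.phaseQT_of_finiteIndex H (phaseQT_of_nonuniquePhase ?_)
  set τ := ρ.comp H.subtype
  have : Group.FG τ.range := Group.fg_range τ
  have hsΔ : Semi.Spanning τ.range.subtype := by
    rw [Semi.Spanning, ← Red.spanning_restrict hs H]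
    refine congrArg (Submodule.span K) (Set.ext fun A => ⟨?_, ?_⟩)
    · rintro ⟨⟨_, g, rfl⟩, rfl⟩
      exact ⟨g, rfl⟩
    · rintro ⟨g, rfl⟩
      exact ⟨⟨_, g, rfl⟩, rfl⟩
  have hpΔ : Semi.PrimeClosure τ.range.subtype := fun f₁ f₂ h =>
    (hp f₁ f₂ fun g => h ⟨_, g, rfl⟩).imp
      (fun h => by rintro ⟨_, g, rfl⟩; exact h g) fun h => by rintro ⟨_, g, rfl⟩; exact h g
  obtain ⟨P, _, _, k, _, hproper, σ, hσ, hfin⟩ :=
    exists_places_image hn τ.range.subtype τ.range.subtype_injective hsΔ hpΔ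
  refine hker P k (fun _ => n) H (fun v => (σ v).comp τ.rangeRestrict) (fun R => ?_)
    (Or.inr fun v => ⟨hproper v, ?_⟩)
  · refine ((hfin R).image fun x v => σ v x).subset ?_
    rintro _ ⟨g, hg, rfl⟩
    exact ⟨τ.rangeRestrict g, hg, rfl⟩
  · obtain ⟨h1, h2, h4⟩ := hσ v
    refine ⟨h1, fun W hW => h2 W fun x w hw => ?_, fun f₁ f₂ hf => ?_⟩
    · obtain ⟨g, rfl⟩ := τ.rangeRestrict_surjective x
      exact hW g w hw
    · refine (h4 f₁ f₂ fun x => ?_).imp (fun h g => h _) fun h g => h _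
      obtain ⟨g, rfl⟩ := τ.rangeRestrict_surjective x
      exact hf g

end Vale.Agent.P165.EX.Lin
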