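import Vale.Agent.P165.EX.Lin.Line
import Vale.Agent.P165.EX.Fg.Descend
import Vale.Agent.P165.EX.Semi.Transfer
import Vale.Agent.P165.EX.Join.Conditions

/-!
# Places of a finitely generated group of matrices in positive characteristic

When any two entries are algebraically dependent over the prime field, Noether normalisation makes
the entries integral over one polynomial ring in one variable. The embeddings at its place at
infinity are proper places with finite boxes.
-/

namespace Vale.Agent.P165.EX.Lin

open Matrix
open scoped MatrixGroups LaurentSeries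

section Hull

variable (k : Type) [Field k]

/-- The algebraically closed field over the series. -/
abbrev LineClosure : Type := AlgebraicClosure (LineField k)

noncomputable instance lineClosureNormed : NontriviallyNormedField (LineClosure k) :=
  spectralNorm.nontriviallyNormedField (LineField k) (LineClosure k)

noncomputable instance lineClosureAlgebra : NormedAlgebra (LineField k) (LineClosure k) :=
  spectralNorm.normedAlgebra (LineField k) (LineClosure k)

/-- The finite extension of the series field generated by finitely many numbers. -/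
noncomputable abbrev lineHull (s : Finset (LineClosure k)) :=
  IntermediateField.adjoin (LineField k) (s : Set (LineClosure k))

noncomputable instance lineHull_normed (s : Finset (LineClosure k)) :
    NontriviallyNormedField (lineHull k s) :=
  { (inferInstance : NormedField (lineHull k s)) with
    non_trivial := by
      obtain ⟨x, hx⟩ := NontriviallyNormedField.non_trivial (α := LineField k)
      exact ⟨algebraMap (LineField k) _ x, by
        change 1 < ‖algebraMap (LineField k) (LineClosure k) x‖
        rwa [norm_algebraMap']⟩ }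

instance lineHull_proper [Finite k] (s : Finset (LineClosure k)) : ProperSpace (lineHull k s) := by
  have : FiniteDimensional (LineField k) (lineHull k s) :=
    IntermediateField.finiteDimensional_adjoin fun x _ => Algebra.IsIntegral.isIntegral x
  exact FiniteDimensional.proper (LineField k) _

/-- An embedding of a finite extension stays in the field generated by the images of one basis. -/
theorem exists_hull {F K₀ : Type} [Field F] [Field K₀] [Algebra F K₀] [Module.Finite F K₀]
    [Algebra F (LineClosure k)]
    (hF : ∀ (t : Finset (LineClosure k)) (x : F), algebraMap F (LineClosure k) x ∈ lineHull k t)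
    (v : K₀ →ₐ[F] LineClosure k) :
    ∃ t : Finset (LineClosure k), ∀ x, v x ∈ lineHull k t := by
  classical
  let b := Module.finBasis F K₀
  refine ⟨Finset.univ.image fun i => v (b i), fun x => ?_⟩
  rw [← b.sum_repr x, map_sum]
  refine sum_mem fun i _ => ?_
  rw [map_smul, Algebra.smul_def]
  exact mul_mem (hF _ _) (IntermediateField.subset_adjoin _ _
    (Finset.mem_image.2 ⟨i, Finset.mem_univ i, rfl⟩))

/-- The embeddings at infinity of a finite extension. -/
theorem exists_embeddings {F K₀ : Type} [Field F] [Field K₀] [Algebra F K₀] [Module.Finite F K₀]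
    [Algebra F (LineClosure k)] :
    ∃ _ : Fintype (K₀ →ₐ[F] LineClosure k), Nonempty (K₀ →ₐ[F] LineClosure k) :=
  ⟨Fintype.ofFinite _, ⟨IsAlgClosed.lift⟩⟩

end Hull

/-- An injective representation over a field of transcendence degree at most one has proper places
with finite boxes, keeping full span and prime closure. -/
theorem exists_places_charP {K : Type} [Field K] (p : ℕ) [Fact p.Prime] [Algebra (ZMod p) K]
    (htr : ∀ f : Fin 2 → K, ¬ AlgebraicIndependent (ZMod p) f) {n : ℕ} {Δ : Type} [Group Δ]
    [Group.FG Δ] [Infinite Δ] (ρ : Δ →* SL(n, K)) (hinj : Function.Injective ρ)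
    (hs : Semi.Spanning ρ) (hp : Semi.PrimeClosure ρ) :
    ∃ (P : Type) (_ : Fintype P) (_ : Nonempty P) (k : P → Type)
      (_ : ∀ v, NontriviallyNormedField (k v)) (_ : ∀ v, ProperSpace (k v))
      (σ : ∀ v, Δ →* SL(n, k v)), (∀ v, Semi.Spanning (σ v)) ∧
        (∀ v, Semi.PrimeClosure (σ v)) ∧ FiniteBoxes σ := by
  classical
  obtain ⟨S, hS⟩ := ‹Group.FG Δ›.out
  set E : Finset K := (S ×ˢ (Finset.univ : Finset (Fin n × Fin n))).image
    fun u => (ρ u.1 : Matrix (Fin n) (Fin n) K) u.2.1 u.2.2
  set A : Subalgebra (ZMod p) K := Algebra.adjoin (ZMod p) (E : Set K)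
  have : Algebra.FiniteType (ZMod p) A := A.fg_iff_finiteType.1 ⟨E, rfl⟩
  have hEA : ∀ x ∈ (S : Set Δ), ∀ i j, (ρ x : Matrix (Fin n) (Fin n) K) i j ∈ A.toSubring :=
    fun x hx i j => Algebra.subset_adjoin
      (Finset.mem_image.2 ⟨(x, i, j), Finset.mem_product.2 ⟨hx, Finset.mem_univ _⟩, rfl⟩)
  obtain ⟨s, g, hginj, hgfin⟩ := exists_finite_inj_algHom_of_fg (ZMod p) A
  -- one variable
  have hs1 : s = 1 := by
    rcases s with _ | _ | s
    · exfalso
      have : Finite (MvPolynomial (Fin 0) (ZMod p)) :=
        Finite.of_equiv _ (MvPolynomial.isEmptyAlgEquiv (ZMod p) (Fin 0)).toEquiv.symm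
      let : Module (MvPolynomial (Fin 0) (ZMod p)) A := g.toRingHom.toModule
      have : Module.Finite (MvPolynomial (Fin 0) (ZMod p)) A := hgfin
      have : Finite A := Module.finite_of_finite (MvPolynomial (Fin 0) (ZMod p))
      have hent := fun x i j => Fg.entries_mem ρ hS A.toSubring hEA x i j
      have : Finite Δ := Finite.of_injective
        (fun x i j => (⟨(ρ x : Matrix (Fin n) (Fin n) K) i j, hent x i j⟩ : A))
        fun x y e => hinj (Subtype.ext (Matrix.ext fun i j =>
          congrArg Subtype.val (congrFun (congrFun e i) j)))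
      exact not_finite Δ
    · rfl
    · exfalso
      refine htr (fun i => (g (MvPolynomial.X (Fin.castLE (by omega) i)) : K)) ?_
      have hX : AlgebraicIndependent (ZMod p)
          (fun i => ((A.val.comp g) (MvPolynomial.X i) : K)) :=
        (MvPolynomial.algebraicIndependent_X (Fin (s + 1 + 1)) (ZMod p)).map'
          (Subtype.val_injective.comp hginj)
      exact hX.comp _ (Fin.castLE_injective _)
  subst hs1
  -- the polynomial ring and its fraction field inside `K`
  let e : Polynomial (ZMod p) ≃ₐ[ZMod p] MvPolynomial (Fin 1) (ZMod p) :=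
    (MvPolynomial.uniqueAlgEquiv (ZMod p) (Fin 1)).symm
  set φ : Polynomial (ZMod p) →+* K :=
    (A.val.toRingHom.comp g.toRingHom).comp e.toRingEquiv.toRingHom
  have hφ : Function.Injective φ := (Subtype.val_injective.comp hginj).comp e.injective
  letI : Algebra (Polynomial (ZMod p)) K := φ.toAlgebra
  letI : Algebra (FractionRing (Polynomial (ZMod p))) K := (IsFractionRing.lift hφ).toAlgebra
  have : IsScalarTower (Polynomial (ZMod p)) (FractionRing (Polynomial (ZMod p))) K :=
    IsScalarTower.of_algebraMap_eq fun x => (IsFractionRing.lift_algebraMap hφ x).symm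
  have hA : ∀ a ∈ A, IsIntegral (Polynomial (ZMod p)) a := fun a ha => by
    obtain ⟨q, hq, he⟩ := hgfin.to_isIntegral ⟨a, ha⟩
    refine ⟨q.map e.symm.toRingEquiv.toRingHom, hq.map _, ?_⟩
    have := congrArg A.val.toRingHom he
    rw [Polynomial.hom_eval₂, map_zero] at this
    have key : (algebraMap (Polynomial (ZMod p)) K).comp e.symm.toRingEquiv.toRingHom =
        A.val.toRingHom.comp g.toRingHom := RingHom.ext fun x => by
      change (g (e (e.symm x)) : K) = (g x : K)
      rw [AlgEquiv.apply_symm_apply]
    rw [Polynomial.eval₂_map]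
    exact (congrArg (fun f => Polynomial.eval₂ f a q) key).trans this
  set K₀ := IntermediateField.adjoin (FractionRing (Polynomial (ZMod p))) (E : Set K)
  have : FiniteDimensional (FractionRing (Polynomial (ZMod p))) K₀ :=
    IntermediateField.finiteDimensional_adjoin fun x hx => (hA x (Algebra.subset_adjoin hx)).tower_top
  set B : Subring K :=
    K₀.toSubfield.toSubring ⊓ (integralClosure (Polynomial (ZMod p)) K).toSubring
  have hE : ∀ x ∈ (S : Set Δ), ∀ i j, (ρ x : Matrix (Fin n) (Fin n) K) i j ∈ B := by
    intro x hx i j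
    exact ⟨IntermediateField.subset_adjoin _ _
      (Finset.mem_image.2 ⟨(x, i, j), Finset.mem_product.2 ⟨hx, Finset.mem_univ _⟩, rfl⟩),
      hA _ (hEA x hx i j)⟩
  have hB := Fg.entries_mem ρ hS B hE
  obtain ⟨ρ₀, hρ₀, -⟩ := Fg.exists_descend (algebraMap K₀ K) ρ fun x i j => ⟨⟨_, (hB x i j).1⟩, rfl⟩
  have : IsScalarTower (Polynomial (ZMod p)) K₀ K := IsScalarTower.of_algebraMap_eq fun _ => rfl
  -- the embeddings at infinity, inside proper fields
  let ι : Polynomial (ZMod p) →+* LineClosure (ZMod p) :=
    (algebraMap (LineField (ZMod p)) (LineClosure (ZMod p))).comp lineEmb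
  have hι : Function.Injective ι :=
    (algebraMap (LineField (ZMod p)) (LineClosure (ZMod p))).injective.comp lineEmb_injective
  letI : Algebra (FractionRing (Polynomial (ZMod p))) (LineClosure (ZMod p)) :=
    (IsFractionRing.lift (g := ι) hι).toAlgebra
  let P : Type := K₀ →ₐ[FractionRing (Polynomial (ZMod p))] LineClosure (ZMod p)
  obtain ⟨hPf, hne⟩ := exists_embeddings (ZMod p) (F := FractionRing (Polynomial (ZMod p))) (K₀ := K₀)
  have hbase : ∀ (t : Finset (LineClosure (ZMod p))) (x : FractionRing (Polynomial (ZMod p))),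
      algebraMap _ (LineClosure (ZMod p)) x ∈ lineHull (ZMod p) t := fun t x => by
    obtain ⟨r, q, -, rfl⟩ := IsFractionRing.div_surjective (Polynomial (ZMod p)) x
    rw [map_div₀, RingHom.algebraMap_toAlgebra, IsFractionRing.lift_algebraMap,
      IsFractionRing.lift_algebraMap]
    exact div_mem ((lineHull (ZMod p) t).algebraMap_mem _) ((lineHull (ZMod p) t).algebraMap_mem _)
  choose gens hmem using fun v : P => exists_hull (ZMod p) hbase v
  let ψ : ∀ v : P, K₀ →+* lineHull (ZMod p) (gens v) :=
    fun v => v.toRingHom.codRestrict (lineHull (ZMod p) (gens v)) (hmem v)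
  have hmap : ∀ g, (ρ g : Matrix (Fin n) (Fin n) K) =
      (ρ₀ g : Matrix (Fin n) (Fin n) K₀).map (algebraMap K₀ K) :=
    fun g => Matrix.ext fun i j => (hρ₀ g i j).symm
  refine ⟨P, hPf, hne, fun v => lineHull (ZMod p) (gens v), fun v => inferInstance,
    fun v => inferInstance, fun v => (SpecialLinearGroup.map (ψ v)).comp ρ₀, fun v => ?_,
    fun v => ?_, fun R => ?_⟩
  · exact Semi.spanning_map (ψ v) ρ₀ _ (fun _ => rfl) (Semi.spanning_comap _ ρ₀ ρ hmap hs)
  · exact Semi.prime_map (ψ v) ρ₀ _ (fun _ => rfl) (Semi.prime_comap _ ρ₀ ρ hmap hp)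
  have hbox := Fg.finite_integral_box (R := Polynomial (ZMod p))
    (F := FractionRing (Polynomial (ZMod p))) (K := K₀) (P := Unit)
    (fun _ => LineClosure (ZMod p)) (fun C => (lineEmb_box (k := ZMod p) C).subset fun r hr => by
      have hr' := hr ()
      rw [RingHom.algebraMap_toAlgebra, IsFractionRing.lift_algebraMap] at hr'
      exact (spectralNorm_extends (K := LineField (ZMod p)) (lineEmb r)).symm.trans_le hr') R
  set D : Finset K₀ := hbox.toFinset
  have hmat : {M : Matrix (Fin n) (Fin n) K₀ | ∀ i j, M i j ∈ D}.Finite :=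
    ((Fintype.piFinset fun _ : Fin n => Fintype.piFinset fun _ : Fin n => D).finite_toSet).subset
      fun M hM => by simpa [Fintype.mem_piFinset] using! hM
  refine (hmat.preimage (f := fun g => (ρ₀ g : Matrix (Fin n) (Fin n) K₀))
    (fun a _ b _ e => hinj (Subtype.ext (by
      rw [hmap a, hmap b]
      exact congrArg (fun M : Matrix (Fin n) (Fin n) K₀ => M.map (algebraMap K₀ K)) e)))).subset
    fun g hg i j => hbox.mem_toFinset.2 ⟨?_, fun _ σ => hg σ i j⟩
  refine (isIntegral_algHom_iff (IsScalarTower.toAlgHom (Polynomial (ZMod p)) K₀ K)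
    (algebraMap K₀ K).injective).1 ?_
  change IsIntegral (Polynomial (ZMod p))
    (algebraMap K₀ K ((ρ₀ g : Matrix (Fin n) (Fin n) K₀) i j))
  rw [hρ₀ g i j]
  exact (hB g i j).2

end Vale.Agent.P165.EX.Lin
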