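import Vale.Agent.P165.EX.Lin.Main
import Vale.Agent.P165.EX.Stab.Separate
import Vale.Agent.P165.EX.Stab.Malcev

/-!
# Linear groups: a phase for all actions with finite stabilisers
-/

namespace Vale.Agent.P165.EX.Lin

open Matrix
open scoped MatrixGroups

/-- A linear group in characteristic zero without a solvable subgroup of finite index has a phase
for all actions with finite stabilisers, given the phase for arbitrary kernels. -/
theorem phaseProper_linear (hker : PhaseKernel) {K : Type} [Field K] [CharZero K] {Γ : Type}
    [Group Γ] {n : ℕ} (φ : Γ →* GL (Fin n) K) (hinj : Function.Injective φ)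
    (h : ∀ H : Subgroup Γ, H.FiniteIndex → ¬ Group.IsSolvable H) : PhaseProper Γ := by
  refine Stab.phaseProper_of_residual (fun _ g hg =>
    Stab.exists_finiteIndex_notMem ((Units.coeHom _).comp φ) fun e =>
      hg (hinj ((Units.ext e).trans (map_one φ).symm))) fun H hH => ?_
  refine phaseQT_linear hker (φ.comp H.subtype) fun M hM hsol => ?_
  let ι := φ.comp H.subtype
  have hι : Function.Injective ι := hinj.comp H.subtype_injective
  let e := MonoidHom.ofInjective hι
  let L : Subgroup Γ := (M.map e.symm.toMonoidHom).map H.subtype
  have hL : L.FiniteIndex := finiteIndex_map_subtype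
    ⟨fun h0 => hM.index_ne_zero <| Nat.eq_zero_of_zero_dvd
      (h0 ▸ M.index_map_dvd (f := e.symm.toMonoidHom) e.symm.surjective)⟩
  refine h L hL ?_
  have hf : Function.Injective (H.subtype.comp e.symm.toMonoidHom) :=
    H.subtype_injective.comp e.symm.injective
  have := (Subgroup.equivMapOfInjective M _ hf).surjective
  have h1 := Group.isSolvable_of_surjective
    (f := (Subgroup.equivMapOfInjective M _ hf).toMonoidHom) this
  rwa [← Subgroup.map_map] at h1

end Vale.Agent.P165.EX.Lin
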