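import Vale.Agent.P165.EX.Lin.Folner
import Vale.Agent.P165.EX.Lin.Proper

/-!
# Expanding graphs with a linear symmetry group

For a graph with a cocompact action of a linear group of characteristic zero with finite
stabilisers, positive vertex expansion forces a nonuniqueness phase, given the phase for arbitrary
kernels. Virtually solvable groups are excluded by the expansion.
-/

namespace Vale.Agent.P165.EX.Lin

open Matrix
open scoped MatrixGroups

/-- The first question for graphs with a linear symmetry group in characteristic zero. -/
theorem phase_of_expands (hker : PhaseKernel) {K : Type} [Field K] [CharZero K] {Γ : Type}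
    [Group Γ] {n : ℕ} (φ : Γ →* GL (Fin n) K) (hinj : Function.Injective φ) {V : Type}
    (G : SimpleGraph V) (hc : G.Connected) (hf : ∀ v, (G.neighborSet v).Finite)
    (Φ : Γ →* (G ≃g G)) (hstab : ∀ v, {g | Φ g v = v}.Finite) (R : Finset V)
    (cover : ∀ v, ∃ g, Φ g v ∈ R) {h : ℝ} (hh : 0 < h) (he : Expands G h) : pc G < pu G :=
  phaseProper_linear hker φ hinj (fun H hH hsol =>
    haveI := hH
    not_expands (fol_virtuallySolvable H hsol) hc hf Φ hstab R cover hh he)
    V G hc hf Φ hstab R cover

end Vale.Agent.P165.EX.Lin
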