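import Vale.Agent.P165.EX.Semi.Transfer

/-!
# Images that are not virtually solvable, and a criterion

An image is virtually solvable when some term of the derived series of a subgroup of finite index
acts trivially. A group of matrices of determinant one with infinite image which spans all
matrices on every subgroup of index at most a bound depending only on the degree is not virtually
solvable.
-/

namespace Vale.Agent.P165.EX.Lin

open Matrix Finset
open scoped MatrixGroups commutatorElement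

variable {Γ : Type} [Group Γ]

/-- The derived series of a subgroup, inside the group. -/
def dser (L : Subgroup Γ) : ℕ → Subgroup Γ
  | 0 => L
  | j + 1 => ⁅dser L j, dser L j⁆

theorem dser_mono {L L' : Subgroup Γ} (h : L ≤ L') : ∀ j, dser L j ≤ dser L' j
  | 0 => h
  | j + 1 => Subgroup.commutator_mono (dser_mono h j) (dser_mono h j)

theorem dser_succ_le (L : Subgroup Γ) : ∀ j, dser L (j + 1) ≤ dser L j
  | 0 => Subgroup.commutator_le.2 fun _ hx _ hy => by
      rw [commutatorElement_def]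
      exact L.mul_mem (L.mul_mem (L.mul_mem hx hy) (L.inv_mem hx)) (L.inv_mem hy)
  | j + 1 => Subgroup.commutator_mono (dser_succ_le L j) (dser_succ_le L j)

theorem dser_antitone (L : Subgroup Γ) : Antitone (dser L) := antitone_nat_of_succ_le (dser_succ_le L)

instance dser_normal (L : Subgroup Γ) [L.Normal] : ∀ j, (dser L j).Normal
  | 0 => inferInstanceAs L.Normal
  | j + 1 =>
    have := dser_normal L j
    inferInstanceAs (⁅dser L j, dser L j⁆).Normal

/-- No term of the derived series of a subgroup of finite index acts trivially. -/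
def NonSolv {M : Type} [Monoid M] (f : Γ →* M) : Prop :=
  ∀ L : Subgroup Γ, L.FiniteIndex → ∀ j, ∃ g ∈ dser L j, f g ≠ 1

theorem infinite_of_nonSolv {G : Type} [Group G] {f : Γ →* G} (h : NonSolv f) :
    (Set.range f).Infinite := fun hfin => by
  have : Finite f.range := hfin.to_subtype
  have : f.ker.FiniteIndex := Subgroup.finiteIndex_ker f
  obtain ⟨g, hg, hg'⟩ := h f.ker inferInstance 0
  exact hg' (MonoidHom.mem_ker.1 hg)

variable {K : Type} [Field K] {m : ℕ}

/-- A matrix commuting with a spanning set is scalar. -/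
theorem scalar_of_commute {s : Set (Matrix (Fin m) (Fin m) K)}
    (hs : Submodule.span K s = ⊤) {x : Matrix (Fin m) (Fin m) K} (h : ∀ a ∈ s, a * x = x * a) :
    x ∈ Set.range (Matrix.scalar (Fin m)) := by
  have hall : ∀ a, a * x = x * a := fun a => by
    have ha : a ∈ Submodule.span K s := hs ▸ Submodule.mem_top
    induction ha using Submodule.span_induction with
    | mem b hb => exact h b hb
    | zero => simp
    | add a b _ _ ha hb => rw [add_mul, mul_add, ha, hb]
    | smul c a _ ha => rw [smul_mul_assoc, mul_smul_comm, ha]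
  exact mem_range_scalar_of_commute_single fun i j _ => (hall (Matrix.single i j 1) : _)

/-- Commuting matrices over a closed field have a common eigenvector. -/
theorem exists_common_eigen [IsAlgClosed K] (hm : 0 < m) (A : Set (Matrix (Fin m) (Fin m) K))
    (hA : ∀ a ∈ A, ∀ b ∈ A, a * b = b * a) :
    ∃ v : Fin m → K, v ≠ 0 ∧ ∀ a ∈ A, ∃ c : K, a *ᵥ v = c • v := by
  have htop : (⊤ : Submodule K (Fin m → K)) ≠ ⊥ := by
    have : Nonempty (Fin m) := ⟨⟨0, hm⟩⟩
    exact top_ne_bot
  obtain ⟨W, -, hW⟩ := exists_minimal_le_of_wellFoundedLT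
    (fun W : Submodule K (Fin m → K) => W ≠ ⊥ ∧ ∀ a ∈ A, ∀ v ∈ W, a *ᵥ v ∈ W) ⊤
    ⟨htop, fun _ _ _ _ => Submodule.mem_top⟩
  obtain ⟨v, hv, hv0⟩ := Submodule.exists_mem_ne_zero_of_ne_bot hW.1.1
  refine ⟨v, hv0, fun a ha => ?_⟩
  let f : Module.End K W := a.mulVecLin.restrict (fun v hv => hW.1.2 a ha v hv)
  have : Nontrivial W := nontrivial_of_ne ⟨v, hv⟩ 0 fun h => hv0 (congrArg Subtype.val h)
  obtain ⟨c, hc⟩ := Module.End.exists_eigenvalue f
  obtain ⟨u, hu⟩ := hc.exists_hasEigenvector
  let E := W ⊓ LinearMap.ker (a.mulVecLin - c • LinearMap.id)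
  have hE : W ≤ E := hW.2 ⟨(Submodule.ne_bot_iff _).2 ⟨u.1, ⟨u.2, by
    change a *ᵥ u.1 - c • u.1 = 0
    rw [sub_eq_zero]
    exact congrArg Subtype.val hu.apply_eq_smul⟩, fun h => hu.2 (Subtype.ext h)⟩, fun b hb w hw => ?_⟩
    inf_le_left
  · refine ⟨c, ?_⟩
    have := (hE hv).2
    simpa [sub_eq_zero] using this
  · refine ⟨hW.1.2 b hb w hw.1, ?_⟩
    have hw2 : a *ᵥ w = c • w := by simpa [sub_eq_zero] using hw.2
    change a *ᵥ (b *ᵥ w) - c • (b *ᵥ w) = 0
    rw [sub_eq_zero]
    rw [mulVec_mulVec, hA a ha b hb, ← mulVec_mulVec, hw2, mulVec_smul]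

/-- Joint eigenvectors with distinct characters are linearly independent. -/
theorem linearIndependent_joint {α : Type} {ι : Type} [DecidableEq ι] {V : Type} [AddCommGroup V]
    [Module K V] (A : α → V →ₗ[K] V) (v : ι → V) (χ : ι → α → K)
    (hχ : Function.Injective χ) (hv : ∀ i, v i ≠ 0) (he : ∀ i a, A a (v i) = χ i a • v i) :
    LinearIndependent K v := by
  refine linearIndependent_iff'.2 fun s => ?_
  induction s using Finset.induction_on with
  | empty => intro g _ i hi; exact absurd hi (notMem_empty i)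
  | insert j s hj ih =>
    intro g hg
    have hs : ∀ i ∈ s, g i = 0 := fun i hi => by
      have hij : i ≠ j := fun h => hj (h ▸ hi)
      obtain ⟨a, ha⟩ := Function.ne_iff.1 (hχ.ne hij)
      have h1 := congrArg (fun w => A a w - χ j a • w) hg
      simp only [map_sum, map_smul, he, smul_sum, map_zero, smul_zero, sub_zero,
        ← sum_sub_distrib, smul_smul, ← sub_smul] at h1
      rw [sum_insert hj, show g j * χ j a - χ j a * g j = 0 by ring, zero_smul, zero_add] at h1
      have := ih (fun i => g i * χ i a - χ j a * g i) h1 i hi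
      rw [mul_comm (χ j a), ← mul_sub, mul_eq_zero, sub_eq_zero] at this
      exact this.resolve_right ha
    intro i hi
    rcases mem_insert.1 hi with rfl | h
    · rw [sum_insert hj, sum_eq_zero (fun l hl => by rw [hs l hl, zero_smul]), add_zero,
        smul_eq_zero] at hg
      exact hg.resolve_right (hv _)
    · exact hs i h

theorem linearIndependent_eigen {α : Type} {ι : Type} [DecidableEq ι]
    (A : α → Matrix (Fin m) (Fin m) K) (v : ι → Fin m → K) (χ : ι → α → K)
    (hχ : Function.Injective χ) (hv : ∀ i, v i ≠ 0) (he : ∀ i a, A a *ᵥ v i = χ i a • v i) :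
    LinearIndependent K v :=
  linearIndependent_joint (fun a => (A a).mulVecLin) v χ hχ hv he

/-- The bound on the index. -/
def bound (m : ℕ) : ℕ := (m * m * m).factorial + m

/-- Scalar matrices of determinant one are finitely many. -/
theorem finite_scalar (hm : 0 < m) :
    {x : Matrix (Fin m) (Fin m) K | x.det = 1 ∧ x ∈ Set.range (scalar (Fin m))}.Finite := by
  classical
  refine ((Polynomial.nthRoots m (1 : K)).toFinset.finite_toSet.image (scalar (Fin m))).subset ?_
  rintro x ⟨hx, c, rfl⟩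
  exact ⟨c, by simpa [Polynomial.mem_nthRoots hm] using hx, rfl⟩

theorem card_scalar (hm : 0 < m) (S : Finset (Matrix (Fin m) (Fin m) K))
    (hS : ∀ x ∈ S, x.det = 1 ∧ x ∈ Set.range (scalar (Fin m))) : S.card ≤ m := by
  classical
  refine (card_le_card (t := (Polynomial.nthRoots m (1 : K)).toFinset.image (scalar (Fin m)))
    fun x hx => ?_).trans (card_image_le.trans ((Multiset.toFinset_card_le _).trans
      (Polynomial.card_nthRoots m 1)))
  obtain ⟨hd, c, rfl⟩ := hS x hx
  exact mem_image.2 ⟨c, by simpa [Polynomial.mem_nthRoots hm] using hd, rfl⟩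

variable (ρ : Γ →* SL(m, K))

theorem isScalar_mul_inv {x y : Γ} {c : K}
    (h : (ρ (x⁻¹ * y) : Matrix (Fin m) (Fin m) K) = scalar (Fin m) c) :
    (ρ y : Matrix (Fin m) (Fin m) K) = c • (ρ x : Matrix (Fin m) (Fin m) K) := by
  rw [show y = x * (x⁻¹ * y) by group, map_mul, Matrix.SpecialLinearGroup.coe_mul, h, scalar_apply,
    ← smul_one_eq_diagonal, mul_smul_comm, mul_one]

/-- A group of matrices commuting up to scalars, with scalar centre, has at most `m ^ 3`
elements: conjugation has the elements in different cosets of the scalars as joint eigenvectors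
with different characters. -/
theorem image_small (hm : 0 < m) (D : Subgroup Γ)
    (hω : ∀ a ∈ D, ∀ b ∈ D, ∃ ω : K, (ρ a : Matrix (Fin m) (Fin m) K) * (ρ b : Matrix (Fin m) (Fin m) K) =
      ω • ((ρ b : Matrix (Fin m) (Fin m) K) * (ρ a : Matrix (Fin m) (Fin m) K)))
    (hc : ∀ x ∈ D, (ρ x : Matrix (Fin m) (Fin m) K) ∉ Set.range (scalar (Fin m)) →
      ∃ y ∈ D, (ρ y : Matrix (Fin m) (Fin m) K) * (ρ x : Matrix (Fin m) (Fin m) K) ≠
        (ρ x : Matrix (Fin m) (Fin m) K) * (ρ y : Matrix (Fin m) (Fin m) K)) :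
    ∀ S : Finset Γ, (∀ x ∈ S, x ∈ D) → Set.InjOn ρ S → S.card ≤ m * m * m := by
  classical
  intro S hSD hinj
  let Sep : Finset Γ → Prop := fun T => ∀ x ∈ T, ∀ y ∈ T, x ≠ y →
    (ρ (x⁻¹ * y) : Matrix (Fin m) (Fin m) K) ∉ Set.range (scalar (Fin m))
  obtain ⟨R, hRmax⟩ := (S.powerset.filter Sep).exists_maximal
      ⟨∅, mem_filter.2 ⟨empty_mem_powerset S, fun x hx => absurd hx (notMem_empty x)⟩⟩
  have : Nonempty (Fin m) := ⟨⟨0, hm⟩⟩
  obtain ⟨hRS, hR⟩ := mem_filter.1 hRmax.1
  rw [mem_powerset] at hRS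
  have hmax := hRmax.2
  have fmul : ∀ a b : Γ, (ρ (a * b) : Matrix (Fin m) (Fin m) K) =
      (ρ a : Matrix (Fin m) (Fin m) K) * (ρ b : Matrix (Fin m) (Fin m) K) := fun a b => by
    rw [map_mul, Matrix.SpecialLinearGroup.coe_mul]
  have hinv : ∀ a : Γ, (ρ a : Matrix (Fin m) (Fin m) K) * (ρ a⁻¹ : Matrix (Fin m) (Fin m) K) = 1 :=
    fun a => by rw [← fmul]; simp
  have hli : LinearIndependent K fun x : R => (ρ x.1 : Matrix (Fin m) (Fin m) K) := by
    choose w hw using fun (x : R) (a : D) => hω a a.2 x (hSD _ (hRS x.2))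
    refine linearIndependent_joint
      (fun a : D => (LinearMap.mulLeft K (ρ a : Matrix (Fin m) (Fin m) K)).comp
        (LinearMap.mulRight K (ρ (a : Γ)⁻¹ : Matrix (Fin m) (Fin m) K))) _ w
      (fun x y e => ?_) (fun x h0 => ?_) fun x a => ?_
    · by_contra hne
      obtain ⟨a, ha, hac⟩ := hc _ (D.mul_mem (D.inv_mem (hSD _ (hRS x.2))) (hSD _ (hRS y.2)))
        (hR x.1 x.2 y.1 y.2 fun h => hne (Subtype.ext h))
      have hXZ : (ρ (x : Γ) : Matrix (Fin m) (Fin m) K) * (ρ ((x : Γ)⁻¹ * y) : Matrix (Fin m) (Fin m) K) =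
          (ρ (y : Γ) : Matrix (Fin m) (Fin m) K) := by rw [← fmul, mul_inv_cancel_left]
      set A := (ρ a : Matrix (Fin m) (Fin m) K)
      set X := (ρ (x : Γ) : Matrix (Fin m) (Fin m) K) with hX
      set Z := (ρ ((x : Γ)⁻¹ * y) : Matrix (Fin m) (Fin m) K)
      have hy : A * (ρ (y : Γ) : Matrix (Fin m) (Fin m) K) =
          w x ⟨a, ha⟩ • ((ρ (y : Γ) : Matrix (Fin m) (Fin m) K) * A) := by
        rw [congrFun e ⟨a, ha⟩]; exact hw y ⟨a, ha⟩
      have hx : A * X = w x ⟨a, ha⟩ • (X * A) := hw x ⟨a, ha⟩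
      have hw0 : w x ⟨a, ha⟩ ≠ 0 := fun h0 => by
        rw [h0, zero_smul] at hx
        have h1 := congrArg Matrix.det hx
        rw [det_mul, (ρ a).2, one_mul, hX, (ρ (x : Γ)).2, det_zero] at h1
        exact one_ne_zero h1
      have hM : w x ⟨a, ha⟩ • (X * (A * Z - Z * A)) = 0 := by
        rw [mul_sub, smul_sub, ← mul_assoc, ← mul_assoc, ← smul_mul_assoc, ← hx, mul_assoc A, hXZ,
          hy, sub_self]
      rw [smul_eq_zero] at hM
      have h2 := congrArg (fun B => (ρ (x : Γ)⁻¹ : Matrix (Fin m) (Fin m) K) * B) (hM.resolve_left hw0)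
      have h1 : (ρ (x : Γ)⁻¹ : Matrix (Fin m) (Fin m) K) * X = 1 := by rw [hX, ← fmul]; simp
      simp only [mul_zero, ← mul_assoc, h1, one_mul] at h2
      exact hac (sub_eq_zero.1 h2)
    · have := (ρ x.1).2
      rw [show (ρ x.1 : Matrix (Fin m) (Fin m) K) = 0 from h0, det_zero] at this
      exact zero_ne_one this
    · change (ρ (a : Γ) : Matrix (Fin m) (Fin m) K) * ((ρ x.1 : Matrix (Fin m) (Fin m) K) * _) = _
      rw [← mul_assoc, hw x a, smul_mul_assoc, mul_assoc, hinv, mul_one]
  have hRcard : R.card ≤ m * m := by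
    have := hli.fintype_card_le_finrank
    rwa [Fintype.card_coe, Module.finrank_matrix, Fintype.card_fin, Module.finrank_self,
      mul_one] at this
  have hcov : ∀ y ∈ S, ∃ x ∈ R,
      (ρ (x⁻¹ * y) : Matrix (Fin m) (Fin m) K) ∈ Set.range (scalar (Fin m)) := by
    intro y hy
    by_contra hno
    push Not at hno
    have hyR : y ∉ R := fun h => hno y h ⟨1, by simp⟩
    have := hmax (y := insert y R) (mem_filter.2 ⟨mem_powerset.2 (insert_subset hy hRS), ?_⟩)
      (subset_insert y R) (mem_insert_self y R)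
    · exact hyR this
    intro a ha b hb hab
    rcases mem_insert.1 ha with ha' | ha' <;> rcases mem_insert.1 hb with hb' | hb'
    · exact absurd (ha'.trans hb'.symm) hab
    · subst ha'
      rintro ⟨c, hc⟩
      refine hno b hb' ⟨c⁻¹, ?_⟩
      have hc0 : c ≠ 0 := fun h0 => by
        have := (ρ (a⁻¹ * b)).2
        have : Nonempty (Fin m) := ⟨⟨0, hm⟩⟩
        have := (ρ (a⁻¹ * b)).2
        rw [← hc, h0, map_zero, det_zero] at this
        exact one_ne_zero this.symm
      have h1 : (ρ (b⁻¹ * a) : Matrix (Fin m) (Fin m) K) * scalar (Fin m) c = 1 := by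
        rw [hc, ← Matrix.SpecialLinearGroup.coe_mul, ← map_mul]
        simp [mul_assoc]
      calc scalar (Fin m) c⁻¹
          = ((ρ (b⁻¹ * a) : Matrix (Fin m) (Fin m) K) * scalar (Fin m) c) * scalar (Fin m) c⁻¹ := by
            rw [h1, one_mul]
        _ = _ := by rw [mul_assoc, ← map_mul, mul_inv_cancel₀ hc0, map_one, mul_one]
    · subst hb'; exact hno a ha'
    · exact hR a ha' b hb' hab
  have hsub : S ⊆ R.biUnion fun x => S.filter fun y =>
      (ρ (x⁻¹ * y) : Matrix (Fin m) (Fin m) K) ∈ Set.range (scalar (Fin m)) := fun y hy => by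
    obtain ⟨x, hx, h⟩ := hcov y hy
    exact mem_biUnion.2 ⟨x, hx, mem_filter.2 ⟨hy, h⟩⟩
  refine (card_le_card hsub).trans ((card_biUnion_le_card_mul _ _ m fun x hx => ?_).trans
    (Nat.mul_le_mul_right m hRcard))
  refine le_trans (le_of_eq ?_) (card_scalar (K := K) hm ((S.filter fun y =>
      (ρ (x⁻¹ * y) : Matrix (Fin m) (Fin m) K) ∈ Set.range (scalar (Fin m))).image
        fun y => (ρ (x⁻¹ * y) : Matrix (Fin m) (Fin m) K)) fun M hM => ?_)
  · refine (card_image_of_injOn fun a ha b hb e => ?_).symm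
    simp only [coe_filter, Set.mem_ofPred_eq] at ha hb
    refine hinj ha.1 hb.1 ?_
    have e' : ρ (x⁻¹ * a) = ρ (x⁻¹ * b) := Subtype.ext e
    simpa using e'
  · obtain ⟨y, hy, rfl⟩ := mem_image.1 hM
    exact ⟨Matrix.SpecialLinearGroup.det_coe _, (mem_filter.1 hy).2⟩

/-- Full span on all subgroups of small index and infinite image exclude a virtually solvable
image. -/
theorem nonSolv_of_spanning [IsAlgClosed K] (hm : 2 ≤ m)
    (hs : ∀ C : Subgroup Γ, C.FiniteIndex → C.index ≤ bound m →
      Submodule.span K ((fun g => (ρ g : Matrix (Fin m) (Fin m) K)) '' C) = ⊤)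
    (hinf : (Set.range ρ).Infinite) : NonSolv ρ := by
  classical
  intro L₀ hL₀ j
  by_contra hno
  push Not at hno
  set L := L₀.normalCore
  have hkill : ∀ g ∈ dser L j, ρ g = 1 := fun g hg =>
    hno g (dser_mono L₀.normalCore_le j hg)
  let Scal : ℕ → Prop := fun i => ∀ g ∈ dser L i,
    (ρ g : Matrix (Fin m) (Fin m) K) ∈ Set.range (scalar (Fin m))
  have hj : Scal j := fun g hg => ⟨1, by rw [hkill g hg]; simp⟩
  have hex : ∃ i, Scal i := ⟨j, hj⟩
  have hL : ¬ Scal 0 := fun h0 => hinf <| by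
    have hfinL : (ρ '' (L : Set Γ)).Finite :=
      ((finite_scalar (K := K) (m := m) (by omega)).preimage Subtype.val_injective.injOn).subset
        (by rintro _ ⟨g, hg, rfl⟩; exact ⟨Matrix.SpecialLinearGroup.det_coe _, h0 g hg⟩)
    have : Fintype (Γ ⧸ L) := Subgroup.fintypeQuotientOfFiniteIndex
    refine ((Set.finite_range fun q : Γ ⧸ L => ρ q.out).mul hfinL).subset ?_
    rintro _ ⟨g, rfl⟩
    refine ⟨_, ⟨QuotientGroup.mk g, rfl⟩, _,
      ⟨(QuotientGroup.mk g : Γ ⧸ L).out⁻¹ * g, QuotientGroup.eq.1 (Quotient.out_eq _), rfl⟩, ?_⟩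
    change ρ _ * ρ _ = ρ g
    rw [← map_mul, mul_inv_cancel_left]
  obtain ⟨i, hi⟩ : ∃ i, ¬ Scal i ∧ Scal (i + 1) := by
    refine ⟨Nat.find hex - 1, Nat.find_min hex ?_, ?_⟩
    · have : Nat.find hex ≠ 0 := fun h => hL (h ▸ Nat.find_spec hex)
      omega
    · have : Nat.find hex ≠ 0 := fun h => hL (h ▸ Nat.find_spec hex)
      rw [Nat.sub_add_cancel (Nat.one_le_iff_ne_zero.2 this)]
      exact Nat.find_spec hex
  set D := dser L i
  set f : Γ → Matrix (Fin m) (Fin m) K := fun g => (ρ g : Matrix (Fin m) (Fin m) K) with hf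
  have fmul : ∀ a b, f (a * b) = f a * f b := fun a b => by simp [hf]
  by_cases hZ : ∃ z ∈ D, f z ∉ Set.range (scalar (Fin m)) ∧ ∀ y ∈ D, f y * f z = f z * f y
  · -- an abelian normal subset with a non-scalar element
    obtain ⟨z, hzD, hz, hzc⟩ := hZ
    set A : Set Γ := {x | x ∈ D ∧ ∀ y ∈ D, f y * f x = f x * f y}
    have hAconj : ∀ g, ∀ x ∈ A, g * x * g⁻¹ ∈ A := by
      rintro g x ⟨hx, hxc⟩
      refine ⟨(dser_normal L i).conj_mem x hx g, fun y hy => ?_⟩
      have h := hxc _ ((dser_normal L i).conj_mem y hy g⁻¹)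
      rw [← fmul, ← fmul] at h ⊢
      have h' := congrArg (fun M => f g * M * f g⁻¹) h
      simp only [← fmul] at h'
      simpa [mul_assoc] using h'
    obtain ⟨v, hv0, hv⟩ := exists_common_eigen (K := K) (m := m) (by omega) (f '' A) (by
      rintro _ ⟨a, ha, rfl⟩ _ ⟨b, hb, rfl⟩; exact hb.2 a ha.1)
    choose c hc using fun a : A => hv (f a) ⟨a, a.2, rfl⟩
    let X : Set (A → K) := {χ | ∃ w : Fin m → K, w ≠ 0 ∧ ∀ a : A, f a *ᵥ w = χ a • w}
    have hXcard : ∀ S : Finset (A → K), (↑S : Set (A → K)) ⊆ X → S.card ≤ m := by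
      intro S hS
      choose w hw hwe using fun χ : S => hS χ.2
      have := (linearIndependent_eigen (fun a : A => f a) w (fun χ : S => χ.1)
        Subtype.val_injective hw hwe).fintype_card_le_finrank
      rwa [Fintype.card_coe, Module.finrank_pi, Fintype.card_fin] at this
    have hXfin : X.Finite := by
      by_contra hX
      obtain ⟨S, hS, hSc⟩ := Set.Infinite.exists_subset_card_eq hX (m + 1)
      have := hXcard S hS
      omega
    let act : MulAction Γ (A → K) :=
      { smul := fun g χ a => χ ⟨g⁻¹ * a * g, by simpa using hAconj g⁻¹ a a.2⟩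
        one_smul := fun χ => funext fun a => congrArg χ (Subtype.ext (by simp))
        mul_smul := fun g h χ => funext fun a => congrArg χ (Subtype.ext (by simp [mul_assoc])) }
    have hsmul : ∀ (g : Γ) (χ : A → K) (w : Fin m → K), (∀ a : A, f a *ᵥ w = χ a • w) →
        ∀ a : A, f a *ᵥ (f g *ᵥ w) = (g • χ) a • (f g *ᵥ w) := by
      intro g χ w hw a
      rw [mulVec_mulVec, ← fmul, show (a : Γ) * g = g * (g⁻¹ * a * g) by group, fmul,
        ← mulVec_mulVec]
      have := hw ⟨g⁻¹ * a * g, by simpa using hAconj g⁻¹ a a.2⟩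
      rw [this, mulVec_smul]
      rfl
    have horb : MulAction.orbit Γ c ⊆ X := by
      rintro _ ⟨g, rfl⟩
      refine ⟨f g *ᵥ v, fun h0 => hv0 ?_, hsmul g c v hc⟩
      have : f g⁻¹ *ᵥ (f g *ᵥ v) = v := by rw [mulVec_mulVec, ← fmul]; simp [hf]
      rw [← this, h0, mulVec_zero]
    have hidx : (MulAction.stabilizer Γ c).index ≤ m ∧ (MulAction.stabilizer Γ c).index ≠ 0 := by
      rw [MulAction.index_stabilizer]
      have hfin := hXfin.subset horb
      refine ⟨?_, ((Set.ncard_pos hfin).2 ⟨c, MulAction.mem_orbit_self c⟩).ne'⟩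
      rw [Set.ncard_eq_toFinset_card _ hfin]
      exact hXcard _ (by simpa using horb)
    have hspan := hs (MulAction.stabilizer Γ c) ⟨hidx.2⟩
      (hidx.1.trans (Nat.le_add_left _ _))
    -- the eigenspace of the character is preserved, so it is everything
    have hall : ∀ (M : Matrix (Fin m) (Fin m) K) (a : A), f a *ᵥ (M *ᵥ v) = c a • (M *ᵥ v) := by
      intro M a
      have hM : M ∈ Submodule.span K (f '' (MulAction.stabilizer Γ c : Set Γ)) :=
        hspan ▸ Submodule.mem_top
      induction hM using Submodule.span_induction with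
      | mem N hN =>
        obtain ⟨g, hg, rfl⟩ := hN
        have h := hsmul g c v hc a
        rwa [MulAction.mem_stabilizer_iff.1 hg] at h
      | zero => simp
      | add p q _ _ hp hq => rw [add_mulVec, mulVec_add, hp, hq, smul_add]
      | smul t p _ hp => rw [smul_mulVec, mulVec_smul, hp, smul_comm]
    refine hz ⟨c ⟨z, hzD, hzc⟩, (Matrix.ext_of_mulVec_single fun l => ?_).symm⟩
    obtain ⟨r, hr⟩ := Function.ne_iff.1 hv0
    have := hall (vecMulVec (Pi.single l 1) (Pi.single r (v r)⁻¹)) ⟨z, hzD, hzc⟩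
    rw [vecMulVec_mulVec, single_dotProduct, inv_mul_cancel₀ hr, MulOpposite.op_one, one_smul]
      at this
    rw [this, scalar_apply, mulVec_single_one]
    ext q
    by_cases hq : q = l <;> simp [hq, diagonal]
  · -- all central elements are scalar: the image of `D` is small
    push Not at hZ
    have hω : ∀ a ∈ D, ∀ b ∈ D, ∃ ω : K, f a * f b = ω • (f b * f a) := fun a ha b hb => by
      obtain ⟨ω, hω⟩ := hi.2 ⁅a, b⁆ (Subgroup.commutator_mem_commutator ha hb)
      refine ⟨ω, ?_⟩
      rw [← fmul, ← fmul, show a * b = ⁅a, b⁆ * (b * a) by rw [commutatorElement_def]; group, fmul,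
        show f ⁅a, b⁆ = scalar (Fin m) ω from hω.symm, scalar_apply, ← smul_one_eq_diagonal,
        smul_mul_assoc, one_mul]
    obtain ⟨z, hzD, hz⟩ : ∃ z ∈ D, f z ∉ Set.range (scalar (Fin m)) := by
      have := hi.1
      simp only [Scal] at this
      push Not at this
      exact this
    have hsmall := image_small ρ (by omega : 0 < m) D hω hZ
    have hDfin : (ρ '' (D : Set Γ)).Finite := by
      by_contra hD
      obtain ⟨S, hS, hSc⟩ := Set.Infinite.exists_subset_card_eq hD (m * m * m + 1)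
      choose pre hpre hpre' using fun s : S => hS s.2
      have hinj : Function.Injective pre := fun a b e => Subtype.ext (by rw [← hpre' a, e, hpre' b])
      have := hsmall (univ.image pre) (fun x hx => by
        obtain ⟨s, -, rfl⟩ := mem_image.1 hx; exact hpre s) (fun a ha b hb e => by
        obtain ⟨s, -, rfl⟩ := mem_image.1 ha
        obtain ⟨t, -, rfl⟩ := mem_image.1 hb
        rw [hpre' s, hpre' t] at e
        rw [Subtype.ext e])
      rw [card_image_of_injective _ hinj, card_univ, Fintype.card_coe, hSc] at this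
      omega
    have : Fintype ↑(ρ '' (D : Set Γ)) := hDfin.fintype
    have hcardD : Fintype.card ↑(ρ '' (D : Set Γ)) ≤ m * m * m := by
      choose pre hpre hpre' using fun s : ↑(ρ '' (D : Set Γ)) => s.2
      have hinj : Function.Injective pre := fun a b e => Subtype.ext (by rw [← hpre' a, e, hpre' b])
      have := hsmall (univ.image pre) (fun x hx => by
        obtain ⟨s, -, rfl⟩ := mem_image.1 hx; exact hpre s) (fun a ha b hb e => by
        obtain ⟨s, -, rfl⟩ := mem_image.1 ha
        obtain ⟨t, -, rfl⟩ := mem_image.1 hb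
        rw [hpre' s, hpre' t] at e
        rw [Subtype.ext e])
      rwa [card_image_of_injective _ hinj, card_univ] at this
    let act : MulAction Γ ↑(ρ '' (D : Set Γ)) :=
      { smul := fun g x => ⟨ρ g * x.1 * (ρ g)⁻¹, by
          obtain ⟨d, hd, hdx⟩ := x.2
          exact ⟨g * d * g⁻¹, (dser_normal L i).conj_mem d hd g,
            by rw [map_mul, map_mul, map_inv, hdx]⟩⟩
        one_smul := fun x => Subtype.ext (by
          change ρ 1 * x.1 * (ρ 1)⁻¹ = x.1
          simp)
        mul_smul := fun a b x => Subtype.ext (by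
          change ρ (a * b) * x.1 * (ρ (a * b))⁻¹ = ρ a * (ρ b * x.1 * (ρ b)⁻¹) * (ρ a)⁻¹
          simp [mul_assoc]) }
    let π := @MulAction.toPermHom Γ ↑(ρ '' (D : Set Γ)) _ act
    have hCidx : π.ker.index ≤ bound m ∧ π.ker.index ≠ 0 := by
      rw [Subgroup.index_ker]
      refine ⟨(Nat.card_le_card_of_injective _ Subtype.val_injective).trans ?_, Nat.card_pos.ne'⟩
      rw [Nat.card_eq_fintype_card, Fintype.card_perm]
      exact (Nat.factorial_le hcardD).trans (Nat.le_add_right _ _)
    have hspan := hs π.ker ⟨hCidx.2⟩ hCidx.1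
    refine hz (scalar_of_commute hspan ?_)
    rintro _ ⟨g, hg, rfl⟩
    have h := congrArg (fun e : Equiv.Perm ↑(ρ '' (D : Set Γ)) => ((e ⟨ρ z, z, hzD, rfl⟩).1 : SL(m, K)))
      (MonoidHom.mem_ker.1 hg)
    have h' : ρ g * ρ z * (ρ g)⁻¹ = ρ z := h
    rw [mul_inv_eq_iff_eq_mul] at h'
    exact congrArg Subtype.val h'

end Vale.Agent.P165.EX.Lin
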