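import Vale.Agent.P165.EX.Lin.PhaseP
import Vale.Agent.P165.EX.Red.Absolute

/-!
# Full span and prime closure give semisimple images in every characteristic
-/

namespace Vale.Agent.P165.EX.Lin

/-- Full span and prime closure over a proper field give a semisimple image. -/
theorem spanSemisimple : SpanSemisimple :=
  fun _ _ _ _ hn _ _ σ hs hp => Red.semisimpleImage_of_spanning hn σ hs hp

end Vale.Agent.P165.EX.Lin
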