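import Vale.Agent.P165.EX.Lin.MainAny

/-!
# Specialisation in positive characteristic

A strongly spanning infinite image in positive characteristic has a trace transcendental over the
prime field. A point of the algebra of the entries over the field of that trace gives an image
over a field of transcendence degree at most one which is not virtually solvable.
-/

namespace Vale.Agent.P165.EX.Lin

open Matrix Finset
open scoped MatrixGroups

/-- A representation with entries in a subring, into that subring. -/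
theorem exists_lift {K : Type} [Field K] {Γ : Type} [Group Γ] {m : ℕ} (ρ : Γ →* SL(m, K))
    (A : Subring K) (h : ∀ g i j, (ρ g : Matrix (Fin m) (Fin m) K) i j ∈ A) :
    ∃ ρA : Γ →* SL(m, A), ∀ g, SpecialLinearGroup.map A.subtype (ρA g) = ρ g := by
  have hinj : Function.Injective (SpecialLinearGroup.map (n := Fin m) A.subtype) := fun a b e =>
    Subtype.ext (Matrix.map_injective A.subtype_injective (congrArg Subtype.val e))
  have hex : ∀ g, ∃ a, SpecialLinearGroup.map (n := Fin m) A.subtype a = ρ g := fun g =>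
    ⟨⟨Matrix.of fun i j => ⟨_, h g i j⟩, A.subtype_injective (by
      rw [RingHom.map_det, map_one]
      exact (ρ g).2)⟩, Subtype.ext rfl⟩
  choose a ha using hex
  exact ⟨MonoidHom.mk' a fun x y => hinj (by rw [map_mul, ha, ha, ha, map_mul]), ha⟩

variable {K : Type} [Field K] {Γ : Type} [Group Γ] {m : ℕ} (p : ℕ) [Fact p.Prime]
  [Algebra (ZMod p) K] (ρ : Γ →* SL(m, K))

/-- An infinite image with full span has a trace transcendental over the prime field, since a
finitely generated algebra holds finitely many algebraic elements. -/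
theorem exists_transcendental_trace [Group.FG Γ]
    (hs : Submodule.span K (Set.range fun g => (ρ g : Matrix (Fin m) (Fin m) K)) = ⊤)
    (hinf : (Set.range ρ).Infinite) :
    ∃ g, Transcendental (ZMod p) (ρ g : Matrix (Fin m) (Fin m) K).trace := by
  classical
  by_contra hno
  simp only [not_exists, Transcendental, not_not] at hno
  obtain ⟨S, hS⟩ := ‹Group.FG Γ›.out
  set E : Finset K := (S ×ˢ (univ : Finset (Fin m × Fin m))).image
    fun u => (ρ u.1 : Matrix (Fin m) (Fin m) K) u.2.1 u.2.2
  set R : Subalgebra (ZMod p) K := Algebra.adjoin (ZMod p) (E : Set K)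
  have : Algebra.FiniteType (ZMod p) R := R.fg_iff_finiteType.1 ⟨E, rfl⟩
  have hR := Fg.entries_mem ρ hS R.toSubring fun x hx i j => Algebra.subset_adjoin
    (mem_image.2 ⟨(x, i, j), mem_product.2 ⟨hx, mem_univ _⟩, rfl⟩)
  have htr : ∀ g, (ρ g : Matrix (Fin m) (Fin m) K).trace ∈ R := fun g =>
    sum_mem fun i _ => hR g i i
  obtain ⟨L, _, _, _, ⟨θ⟩⟩ := exists_point (ZMod p) R
  have : Finite L := Module.finite_of_finite (ZMod p)
  refine hinf (finite_of_traces ρ hs ?_)
  let tr := fun g => θ ⟨_, htr g⟩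
  have hinj : ∀ g h, tr g = tr h →
      (ρ g : Matrix (Fin m) (Fin m) K).trace = (ρ h : Matrix (Fin m) (Fin m) K).trace := by
    intro g h e
    by_contra hne
    set c : R := ⟨_, htr g⟩ - ⟨_, htr h⟩
    have hc : (c : K) ≠ 0 := sub_ne_zero.2 hne
    have halg : IsAlgebraic (ZMod p) (c : K) := (hno g).sub (hno h)
    have hinv : (c : K)⁻¹ ∈ R := R.inv_mem_of_algebraic halg
    have h1 : θ c * θ ⟨_, hinv⟩ = 1 := by
      rw [← map_mul, show c * ⟨_, hinv⟩ = (1 : R) from Subtype.ext (mul_inv_cancel₀ hc), map_one]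
    rw [map_sub, show θ ⟨_, htr g⟩ = θ ⟨_, htr h⟩ from e, sub_self, zero_mul] at h1
    exact zero_ne_one h1
  choose pre hpre using fun v : Set.range tr => v.2
  refine (Set.finite_range fun v : Set.range tr =>
    (ρ (pre v) : Matrix (Fin m) (Fin m) K).trace).subset ?_
  rintro _ ⟨g, rfl⟩
  exact ⟨⟨tr g, g, rfl⟩, hinj _ _ (hpre ⟨tr g, g, rfl⟩)⟩

omit [Group Γ] in
/-- A field algebraic over the field generated by one element has transcendence degree at most
one. -/
theorem trdeg_simple {t : K} (ht : Transcendental (ZMod p) t) {L : Type} [Field L]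
    [Algebra (ZMod p) L] [Algebra (IntermediateField.adjoin (ZMod p) {t}) L]
    [IsScalarTower (ZMod p) (IntermediateField.adjoin (ZMod p) {t}) L]
    [Algebra.IsAlgebraic (IntermediateField.adjoin (ZMod p) {t}) L] (f : Fin 2 → L) :
    ¬ AlgebraicIndependent (ZMod p) f := by
  intro hf
  let F := IntermediateField.adjoin (ZMod p) {t}
  let x : Unit → F := fun _ => IntermediateField.AdjoinSimple.gen (ZMod p) t
  have hx : AlgebraicIndependent (ZMod p) x := algebraicIndependent_unique_type_iff.2
    fun h => ht (h.algHom F.val)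
  have halg : Algebra.IsAlgebraic (Algebra.adjoin (ZMod p) (Set.range x)) F := by
    refine ⟨fun y => ?_⟩
    obtain ⟨r, q, hq⟩ := IntermediateField.mem_adjoin_simple_iff (ZMod p) (y : K) |>.1 y.2
    have hmem : ∀ u : Polynomial (ZMod p), Polynomial.aeval (x ()) u ∈
        Algebra.adjoin (ZMod p) (Set.range x) := fun u => by
      refine Algebra.adjoin_mono ?_ (Polynomial.aeval_mem_adjoin_singleton _ _)
      exact Set.singleton_subset_iff.2 ⟨(), rfl⟩
    have hy : y = Polynomial.aeval (x ()) r / Polynomial.aeval (x ()) q := Subtype.ext (by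
      rw [hq, IntermediateField.coe_div]
      congr 1 <;> exact Polynomial.aeval_algHom_apply F.val (x ()) _)
    rw [hy, div_eq_mul_inv]
    exact (isAlgebraic_algebraMap (⟨_, hmem r⟩ : Algebra.adjoin (ZMod p) (Set.range x))).mul
      (IsAlgebraic.inv_iff.2
        (isAlgebraic_algebraMap (⟨_, hmem q⟩ : Algebra.adjoin (ZMod p) (Set.range x))))
  have h1 := hf.cardinalMk_le_trdeg
  rw [← trdeg_add_eq (R := ZMod p) (S := F) (A := L), trdeg_eq_zero (R := F) (A := L), add_zero,
    ← (hx.isTranscendenceBasis_iff_isAlgebraic.2 halg).cardinalMk_eq_trdeg] at h1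
  simp at h1

/-- The specialisation. -/
theorem specialiseP : SpecialiseP := by
  intro K _ _ hK Γ _ _ m hm ρ hs hinf
  classical
  have : Fact (ringChar K).Prime :=
    ⟨(CharP.char_is_prime_or_zero K (ringChar K)).resolve_right hK⟩
  let : Algebra (ZMod (ringChar K)) K := ZMod.algebra K (ringChar K)
  obtain ⟨x₀, hx₀⟩ := exists_transcendental_trace (ringChar K) ρ
    (by rw [← hs ⊤ inferInstance, Subgroup.coe_top, Set.image_univ]) hinf
  obtain ⟨S, hS⟩ := ‹Group.FG Γ›.out
  set subs := (finite_subgroups (Γ := Γ) (bound m)).toFinset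
  have hwit : ∀ L : subs, ∃ g : Fin m × Fin m → Γ, (∀ e, g e ∈ L.1) ∧
      (Matrix.of fun u e => (ρ (g u) : Matrix (Fin m) (Fin m) K) e.1 e.2).det ≠ 0 := fun L =>
    exists_det_ne_zero ρ _ (hs L.1 ⟨((Set.Finite.mem_toFinset _).1 L.2).1⟩)
  choose gL hgL hδ using hwit
  set δ := fun L : subs =>
    (Matrix.of fun u e => (ρ (gL L u) : Matrix (Fin m) (Fin m) K) e.1 e.2).det
  set t := (ρ x₀ : Matrix (Fin m) (Fin m) K).trace
  set F := IntermediateField.adjoin (ZMod (ringChar K)) {t}
  set s : Finset K := (S ×ˢ (univ : Finset (Fin m × Fin m))).image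
    (fun u => (ρ u.1 : Matrix (Fin m) (Fin m) K) u.2.1 u.2.2) ∪ univ.image fun L => (δ L)⁻¹
  set A : Subalgebra F K := Algebra.adjoin F (s : Set K)
  have : Algebra.FiniteType F A := A.fg_iff_finiteType.1 ⟨s, rfl⟩
  obtain ⟨L₀, _, _, _, ⟨π⟩⟩ := exists_point F A
  obtain ⟨ρA, hρA⟩ := exists_lift ρ A.toSubring (Fg.entries_mem ρ hS A.toSubring fun x hx i j =>
    Algebra.subset_adjoin (mem_union_left _
      (mem_image.2 ⟨(x, i, j), mem_product.2 ⟨hx, mem_univ _⟩, rfl⟩)))
  have hentry : ∀ g i j, ((ρA g : Matrix (Fin m) (Fin m) A.toSubring) i j : K) =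
      (ρ g : Matrix (Fin m) (Fin m) K) i j := fun g i j => by rw [← hρA g]; rfl
  let : Algebra (ZMod (ringChar K)) (AlgebraicClosure L₀) :=
    ((algebraMap F (AlgebraicClosure L₀)).comp (algebraMap (ZMod (ringChar K)) F)).toAlgebra
  have : IsScalarTower (ZMod (ringChar K)) F (AlgebraicClosure L₀) :=
    IsScalarTower.of_algebraMap_eq fun _ => rfl
  have : Algebra.IsAlgebraic F (AlgebraicClosure L₀) :=
    Algebra.IsAlgebraic.trans F L₀ (AlgebraicClosure L₀)
  let θ : A.toSubring →+* AlgebraicClosure L₀ :=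
    (algebraMap L₀ (AlgebraicClosure L₀)).comp π.toRingHom
  refine ⟨ringChar K, inferInstance, AlgebraicClosure L₀, inferInstance, inferInstance,
    trdeg_simple (ringChar K) hx₀, (SpecialLinearGroup.map θ).comp ρA,
    nonSolv_of_spanning _ hm (fun M hM hidx => ?_) fun hfin => ?_⟩
  · have hmem : M ∈ subs := (Set.Finite.mem_toFinset _).2 ⟨hM.index_ne_zero, hidx⟩
    refine span_eq_top_of_det _ _ (gL ⟨M, hmem⟩) (hgL ⟨M, hmem⟩) ?_
    set N : Matrix (Fin m × Fin m) (Fin m × Fin m) A.toSubring :=
      Matrix.of fun u e => (ρA (gL ⟨M, hmem⟩ u) : Matrix (Fin m) (Fin m) A.toSubring) e.1 e.2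
    have hN : A.toSubring.subtype N.det = δ ⟨M, hmem⟩ := by
      rw [RingHom.map_det]
      exact congrArg Matrix.det (Matrix.ext fun u e => hentry _ _ _)
    let i : A.toSubring := ⟨(δ ⟨M, hmem⟩)⁻¹, Algebra.subset_adjoin (mem_union_right _
      (mem_image.2 ⟨⟨M, hmem⟩, mem_univ _, rfl⟩))⟩
    have hu : IsUnit (θ N.det) := (IsUnit.of_mul_eq_one i (Subtype.ext (by
      change A.toSubring.subtype N.det * (δ ⟨M, hmem⟩)⁻¹ = 1
      rw [hN]
      exact mul_inv_cancel₀ (hδ ⟨M, hmem⟩)))).map θ
    rw [RingHom.map_det] at hu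
    exact hu.ne_zero
  · -- the trace of `x₀` stays transcendental
    have := hfin.to_subtype
    obtain ⟨a, b, hab, he⟩ := Finite.exists_ne_map_eq_of_infinite (fun a : ℕ =>
      (⟨((SpecialLinearGroup.map θ).comp ρA) (x₀ ^ a), _, rfl⟩ :
        Set.range ((SpecialLinearGroup.map θ).comp ρA)))
    set B := ((SpecialLinearGroup.map θ).comp ρA) x₀
    have he' : B ^ a = B ^ b := by simpa [B, ← map_pow] using congrArg Subtype.val he
    obtain ⟨e, he0, he1⟩ : ∃ e, 0 < e ∧ B ^ e = 1 := isOfFinOrder_iff_pow_eq_one.1 (by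
      by_contra hinfo
      exact hab (injective_pow_iff_not_isOfFinOrder.2 hinfo he'))
    have hint := isIntegral_trace (B : Matrix (Fin m) (Fin m) (AlgebraicClosure L₀)) he0 (by
      rw [← Matrix.SpecialLinearGroup.coe_pow, he1, Matrix.SpecialLinearGroup.coe_one])
    have htB : (B : Matrix (Fin m) (Fin m) (AlgebraicClosure L₀)).trace =
        algebraMap F (AlgebraicClosure L₀) (IntermediateField.AdjoinSimple.gen (ZMod (ringChar K)) t) := by
      rw [IsScalarTower.algebraMap_apply F L₀ (AlgebraicClosure L₀), ← AlgHom.commutes π]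
      change ∑ i, θ _ = θ (algebraMap F A _)
      rw [← map_sum]
      refine congrArg θ (Subtype.ext ?_)
      change A.toSubring.subtype (∑ i, (ρA x₀ : Matrix (Fin m) (Fin m) A.toSubring) i i) = t
      rw [map_sum]
      exact sum_congr rfl fun i _ => hentry _ _ _
    rw [htB] at hint
    have halg : IsAlgebraic (ZMod (ringChar K)) (algebraMap F (AlgebraicClosure L₀)
        (IntermediateField.AdjoinSimple.gen (ZMod (ringChar K)) t)) :=
      (hint.tower_top).isAlgebraic
    rw [isAlgebraic_algebraMap_iff (algebraMap F (AlgebraicClosure L₀)).injective] at halg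
    exact hx₀ (halg.algHom F.val)

end Vale.Agent.P165.EX.Lin
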